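import Vale.Agent.P219.Eleven.RowCheck

/-!
# P219, dimension eleven: the diagonal, by kernel checks on boxes
-/

noncomputable section

namespace Vale.Agent.P219.CH.Eleven

open Vale.Agent.P219.Poly Vale.Agent.P219.Poly.E Vale.Agent.P219.Poly.E.Subdiv

/-- `diagS` less its lower bound. -/
def rowDiag : E := hornerR [[120960, 0, 78400, 0, -200704, 0, 1344], [181439, -403200, 755808, 407680, 889600, -4480, 193312], [240240, -604800, -1740096, -452160, -906144, -963200, 143920], [133032, -601440, -830816, 2861280, -1021808, 2240, -72408], [549184, -321680, 891924, 1872320, 23772, 241360], [274320, -810640, 301898, -654240, 118962], [-22716, -483480, -91976, -211700, -15428], [61088, 7140, -22968, 122980, -1528], [71132, -23360, 4796, 15280], [24138, -33160, 306], [3564, -3060]]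

lemma sem_rowDiag (r y : ℝ) : sem ![r, y, 0] rowDiag = diagS r y - r := by
  simp [rowDiag, hornerR, hornerY, sem, diagS]
  ring

theorem okDiag00 : Subdiv.ok (fun _ => true) (fun _ => [rowDiag])
    (.node 1 (.leaf ()) (.node 0 (.leaf ()) (.node 1 (.leaf ()) (.node 1 (.node 0 (.leaf ()) (.node 0 (.leaf ()) (.node 1 (.node 0 (.leaf ()) (.leaf ())) (.leaf ())))) (.leaf ()))))) (box2 0 0) = true := by
  decide +kernel

theorem okDiag01 : Subdiv.ok (fun _ => true) (fun _ => [rowDiag])
    (.node 1 (.leaf ()) (.node 1 (.leaf ()) (.node 1 (.node 0 (.node 1 (.leaf ()) (.leaf ())) (.leaf ())) (.node 0 (.leaf ()) (.node 0 (.node 1 (.leaf ()) (.leaf ())) (.node 1 (.leaf ()) (.leaf ()))))))) (box2 1 0) = true := by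
  decide +kernel

theorem okDiag02 : Subdiv.ok (fun _ => true) (fun _ => [rowDiag])
    (.leaf ()) (box2 2 0) = true := by
  decide +kernel

/-- The diagonal dominates the distance. -/
theorem diagS_ge {r t : ℝ} (hr : 0 ≤ r) (h0 : 0 ≤ t) (h1 : t ≤ 1) :
    r ≤ diagS r t := by
  have h : 0 ≤ sem ![r, t, 0] rowDiag :=
    nonneg_of_trees okDiag00 okDiag01 okDiag02 hr (by simpa using h0)
      (by simpa using h1)
  rw [sem_rowDiag] at h
  linarith

end Vale.Agent.P219.CH.Eleven
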