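import Vale.Agent.P219.Eleven.RowCheck

/-!
# P219, dimension eleven: the edges and the second differences, by kernel checks on boxes
-/

noncomputable section

namespace Vale.Agent.P219.CH.Eleven

open Vale.Agent.P219.Poly Vale.Agent.P219.Poly.E Vale.Agent.P219.Poly.E.Subdiv

/-- `edgeS` less its lower bound. -/
def rowEdge : E := hornerR [[604800, 120960, -611520, -122304, 6720, 1344], [1514495, 787904, 3107904, 945536, 1438080, 286720], [-2156136, -4321656, -7222264, -1498472, -1448160, -482272], [-1296204, 2538316, 803044, 265132, -358680, -71288], [2306646, 3587730, 5309954, 1340470, 362040, 120680], [-3663, -2156201, -840557, -78379], [-894438, -1365512, -886282, -154968], [164106, 246826, 205910, 50006], [185550, 49730, 26074, 10038], [23133, -42029, -16121, 153], [6102, -2556, -1530]]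

lemma sem_rowEdge (r y : ℝ) : sem ![r, y, 0] rowEdge = edgeS r y - r := by
  simp [rowEdge, hornerR, hornerY, sem, edgeS]
  ring

theorem okEdge00 : Subdiv.ok (fun _ => true) (fun _ => [rowEdge])
    (.node 0 (.leaf ()) (.leaf ())) (box2 0 0) = true := by
  decide +kernel

theorem okEdge01 : Subdiv.ok (fun _ => true) (fun _ => [rowEdge])
    (.node 1 (.leaf ()) (.node 0 (.leaf ()) (.node 0 (.leaf ()) (.leaf ())))) (box2 1 0) = true := by
  decide +kernel

theorem okEdge02 : Subdiv.ok (fun _ => true) (fun _ => [rowEdge])
    (.leaf ()) (box2 2 0) = true := by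
  decide +kernel

/-- The edge `d = 1` dominates the distance. -/
theorem edgeS_ge {r c : ℝ} (hr : 0 ≤ r) (h0 : 0 ≤ c) (h1 : c ≤ 1) :
    r ≤ edgeS r c := by
  have h : 0 ≤ sem ![r, c, 0] rowEdge :=
    nonneg_of_trees okEdge00 okEdge01 okEdge02 hr (by simpa using h0)
      (by simpa using h1)
  rw [sem_rowEdge] at h
  linarith

/-- `zeroS` less its lower bound. -/
def rowZero : E := hornerR [[120959, 0, 79968, 0, 672], [181440, -201600, 332688, 0, 192304], [240240, -302400, -583920, 0, -72632], [133032, -300720, -228176, 0, -36204], [549184, -160840, 380538], [274320, -405320, 129779], [-22716, -241740, -33690], [61088, 3570, -9956], [71132, -11680, 2398], [24138, -16580, 153], [3564, -1530]]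

lemma sem_rowZero (r y : ℝ) : sem ![r, y, 0] rowZero = zeroS r y - 1 := by
  simp [rowZero, hornerR, hornerY, sem, zeroS]
  ring

theorem okZero00 : Subdiv.ok (fun _ => true) (fun _ => [rowZero])
    (.leaf ()) (box2 0 0) = true := by
  decide +kernel

theorem okZero01 : Subdiv.ok (fun _ => true) (fun _ => [rowZero])
    (.leaf ()) (box2 1 0) = true := by
  decide +kernel

theorem okZero02 : Subdiv.ok (fun _ => true) (fun _ => [rowZero])
    (.leaf ()) (box2 2 0) = true := by
  decide +kernel

/-- The edge `d = 0` is at least one. -/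
theorem zeroS_ge {r c : ℝ} (hr : 0 ≤ r) (h0 : 0 ≤ c) (h1 : c ≤ 1) :
    1 ≤ zeroS r c := by
  have h : 0 ≤ sem ![r, c, 0] rowZero :=
    nonneg_of_trees okZero00 okZero01 okZero02 hr (by simpa using h0)
      (by simpa using h1)
  rw [sem_rowZero] at h
  linarith

/-- `bendLow` less its lower bound. -/
def rowBendLow : E := hornerR [[1469439, 0, -212800, 0, 336], [-1199616, -26880, -1615392, 6720, 48328], [8195456, -5779200, -1044688, 1444800, 35980], [6310592, 13440, -370136, -3360, -18102], [-1141872, 1448160, 23772, -362040], [-814568, 0, 118962], [258480, 0, -15428], [30560, 0, -1528]]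

lemma sem_rowBendLow (r y : ℝ) : sem ![r, y, 0] rowBendLow = bendLow r y - 1 := by
  simp [rowBendLow, hornerR, hornerY, sem, bendLow]
  ring

theorem okBendLow00 : Subdiv.ok (fun _ => true) (fun _ => [rowBendLow])
    (.leaf ()) (box2 0 0) = true := by
  decide +kernel

theorem okBendLow01 : Subdiv.ok (fun _ => true) (fun _ => [rowBendLow])
    (.leaf ()) (box2 1 0) = true := by
  decide +kernel

theorem okBendLow02 : Subdiv.ok (fun _ => true) (fun _ => [rowBendLow])
    (.leaf ()) (box2 2 0) = true := by
  decide +kernel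

/-- The second difference for `s ≤ 1`. -/
theorem bendLow_ge {r s : ℝ} (hr : 0 ≤ r) (h0 : 0 ≤ s) (h1 : s ≤ 1) :
    1 ≤ bendLow r s := by
  have h : 0 ≤ sem ![r, s, 0] rowBendLow :=
    nonneg_of_trees okBendLow00 okBendLow01 okBendLow02 hr (by simpa using h0)
      (by simpa using h1)
  rw [sem_rowBendLow] at h
  linarith

/-- `bendMid` less its lower bound. -/
def rowBendMid : E := hornerR [[1430015, 39424, -210112, -2688, 336], [-8910592, 7684096, -1228768, -379904, 48328], [7058432, -4642176, -756848, 1156960, 35980], [8434560, -2110528, -514952, 141456, -18102], [-1141872, 1448160, 23772, -362040], [-814568, 0, 118962], [258480, 0, -15428], [30560, 0, -1528]]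

lemma sem_rowBendMid (r y : ℝ) : sem ![r, y, 0] rowBendMid = bendMid r y - 1 := by
  simp [rowBendMid, hornerR, hornerY, sem, bendMid]
  ring

theorem okBendMid10 : Subdiv.ok (fun _ => true) (fun _ => [rowBendMid])
    (.leaf ()) (box2 0 1) = true := by
  decide +kernel

theorem okBendMid11 : Subdiv.ok (fun _ => true) (fun _ => [rowBendMid])
    (.leaf ()) (box2 1 1) = true := by
  decide +kernel

theorem okBendMid12 : Subdiv.ok (fun _ => true) (fun _ => [rowBendMid])
    (.leaf ()) (box2 2 1) = true := by
  decide +kernel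

/-- The second difference for `1 ≤ s`. -/
theorem bendMid_ge {r s : ℝ} (hr : 0 ≤ r) (h0 : 1 ≤ s) (h1 : s ≤ 2) :
    1 ≤ bendMid r s := by
  have h : 0 ≤ sem ![r, s, 0] rowBendMid :=
    nonneg_of_trees okBendMid10 okBendMid11 okBendMid12 hr (by simpa using h0)
      (by norm_num; exact h1)
  rw [sem_rowBendMid] at h
  linarith

/-- `bendHigh` less its lower bound. -/
def rowBendHigh : E := hornerR [[1469439, 0, -202944, 0, -336], [-1199616, -26880, 312352, 6720, -48328], [8195456, -5779200, -760432, 1444800, -35980], [6310592, 13440, -901128, -3360, 18102], [-1141872, 1448160, 23772, -362040], [-814568, 0, 118962], [258480, 0, -15428], [30560, 0, -1528]]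

lemma sem_rowBendHigh (r y : ℝ) : sem ![r, y, 0] rowBendHigh = bendHigh r y - 1 := by
  simp [rowBendHigh, hornerR, hornerY, sem, bendHigh]
  ring

theorem okBendHigh00 : Subdiv.ok (fun _ => true) (fun _ => [rowBendHigh])
    (.leaf ()) (box2 0 0) = true := by
  decide +kernel

theorem okBendHigh01 : Subdiv.ok (fun _ => true) (fun _ => [rowBendHigh])
    (.leaf ()) (box2 1 0) = true := by
  decide +kernel

theorem okBendHigh02 : Subdiv.ok (fun _ => true) (fun _ => [rowBendHigh])
    (.leaf ()) (box2 2 0) = true := by
  decide +kernel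

theorem okBendHigh10 : Subdiv.ok (fun _ => true) (fun _ => [rowBendHigh])
    (.leaf ()) (box2 0 1) = true := by
  decide +kernel

theorem okBendHigh11 : Subdiv.ok (fun _ => true) (fun _ => [rowBendHigh])
    (.leaf ()) (box2 1 1) = true := by
  decide +kernel

theorem okBendHigh12 : Subdiv.ok (fun _ => true) (fun _ => [rowBendHigh])
    (.leaf ()) (box2 2 1) = true := by
  decide +kernel

/-- The second difference for equal cosines. -/
theorem bendHigh_ge {r s : ℝ} (hr : 0 ≤ r) (h0 : 0 ≤ s) (h1 : s ≤ 2) :
    1 ≤ bendHigh r s := by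
  have h : 0 ≤ sem ![r, s, 0] rowBendHigh := by
    rcases le_total s 1 with h | h
    · exact nonneg_of_trees okBendHigh00 okBendHigh01 okBendHigh02 hr (by simpa using h0) (by simpa using h)
    · exact nonneg_of_trees okBendHigh10 okBendHigh11 okBendHigh12 hr (by simpa using h)
        (by norm_num; exact h1)
  rw [sem_rowBendHigh] at h
  linarith

end Vale.Agent.P219.CH.Eleven
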