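import Vale.Agent.P219.Eleven.RowCheck

/-!
# P219, dimension eleven: the quotient on the diagonal, by kernel checks on boxes
-/

noncomputable section

namespace Vale.Agent.P219.CH.Eleven

open Vale.Agent.P219.Poly Vale.Agent.P219.Poly.E Vale.Agent.P219.Poly.E.Subdiv

/-- `diagJ` less its lower bound. -/
def rowDiagJ : E := hornerR [[0, 483840, 483840, 259840, -591104, 5662976, -4645632, -8640768, 12219648, -2349568, -1478656], [120959, 846720, 985600, -201344, 4776320, 3848832, -15609216, -741504, 15979904, -5003008, -2217984], [181440, 739200, 309312, 3555456, 4566912, -9201792, -7280640, 10086720, 4531392, -3980160, -1108992], [240240, 167568, 2371680, 3587008, -5373040, -6387056, 5511040, 4702048, -1898208, -1402688, -184832], [133032, 1728328, 2769600, -2851312, -4519688, 3037688, 3569200, -903168, -1125440, -184832], [549184, 1324784, -1847628, -3390260, 1455108, 2429668, -428616, -774768, -138624], [274320, -627184, -1800470, 440794, 1519826, -220926, -493408, -92416], [-22716, -261844, 551040, 978692, -53432, -299716, -57760], [61088, 352756, 464916, 31540,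 -176364, -34656], [71132, 144324, -11884, -105292, -20216], [24138, 5234, -30838, -11934], [3564, 504, -3060]]

lemma sem_rowDiagJ (r y : ℝ) : sem ![r, y, 0] rowDiagJ = diagJ r y - r := by
  simp [rowDiagJ, hornerR, hornerY, sem, diagJ]
  ring

theorem okDiagJ00 : Subdiv.ok (fun _ => true) (fun _ => [rowDiagJ])
    (.leaf ()) (box2 0 0) = true := by
  decide +kernel

theorem okDiagJ01 : Subdiv.ok (fun _ => true) (fun _ => [rowDiagJ])
    (.leaf ()) (box2 1 0) = true := by
  decide +kernel

theorem okDiagJ02 : Subdiv.ok (fun _ => true) (fun _ => [rowDiagJ])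
    (.leaf ()) (box2 2 0) = true := by
  decide +kernel

/-- The quotient on the diagonal dominates the distance. -/
theorem diagJ_ge {r t : ℝ} (hr : 0 ≤ r) (h0 : 0 ≤ t) (h1 : t ≤ 1) :
    r ≤ diagJ r t := by
  have h : 0 ≤ sem ![r, t, 0] rowDiagJ :=
    nonneg_of_trees okDiagJ00 okDiagJ01 okDiagJ02 hr (by simpa using h0)
      (by simpa using h1)
  rw [sem_rowDiagJ] at h
  linarith

end Vale.Agent.P219.CH.Eleven
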