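import Mathlib

/-!
# P219, dimension eleven: the polynomials of the certificate
-/

noncomputable section

namespace Vale.Agent.P219.CH.Eleven

/-- The coefficient of `c ^ 0` in the numerator of the weight. -/
def pA0 (r : ℝ) : ℝ :=
  10080 + 10080 * r + 9996 * r ^ 2 + 3044 * r ^ 3 + 18744 * r ^ 4 + 2715 * r ^ 5
  - 1536 * r ^ 6 + 1352 * r ^ 7 + 153 * r ^ 8

/-- The coefficient of `c ^ 2` in the numerator of the weight. -/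
def pA2 (r : ℝ) : ℝ :=
  -10192 + 16400 * r - 79732 * r ^ 2 - 6942 * r ^ 3 + 19827 * r ^ 4 - 4621 * r ^ 5
  - 764 * r ^ 6

/-- The coefficient of `c ^ 4` in the numerator of the weight. -/
def pA4 (r : ℝ) : ℝ :=
  112 + 24024 * r - 12068 * r ^ 2

/-- The coefficient of `c ^ 0` in the numerator of its derivative. -/
def gA0 (r : ℝ) : ℝ :=
  -120960 - 181440 * r - 150528 * r ^ 2 - 78240 * r ^ 3 - 90196 * r ^ 4 - 80406 * r ^ 5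
  - 8145 * r ^ 6 + 5776 * r ^ 7 - 740 * r ^ 8

/-- The coefficient of `c ^ 2` in the numerator of its derivative. -/
def gA2 (r : ℝ) : ℝ :=
  122304 - 82464 * r + 523056 * r ^ 2 + 520044 * r ^ 3 - 44598 * r ^ 4 - 70066 * r ^ 5
  + 13863 * r ^ 6 + 1528 * r ^ 7

/-- The coefficient of `c ^ 4` in the numerator of its derivative. -/
def gA4 (r : ℝ) : ℝ :=
  -1344 - 241136 * r - 71624 * r ^ 2 + 72408 * r ^ 3

/-- The coefficient of `q ^ 0` in the symmetrised integrand without the sine product. -/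
def symC0 (r s : ℝ) : ℝ :=
  120960 + 79968 * s ^ 2 + 672 * s ^ 4 + 181440 * r - 201600 * r * s
  + 332688 * r * s ^ 2 + 192304 * r * s ^ 4 + 240240 * r ^ 2 - 302400 * r ^ 2 * s
  - 583920 * r ^ 2 * s ^ 2 - 72632 * r ^ 2 * s ^ 4 + 133032 * r ^ 3
  - 300720 * r ^ 3 * s - 228176 * r ^ 3 * s ^ 2 - 36204 * r ^ 3 * s ^ 4
  + 549184 * r ^ 4 - 160840 * r ^ 4 * s + 380538 * r ^ 4 * s ^ 2 + 274320 * r ^ 5
  - 405320 * r ^ 5 * s + 129779 * r ^ 5 * s ^ 2 - 22716 * r ^ 6 - 241740 * r ^ 6 * s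
  - 33690 * r ^ 6 * s ^ 2 + 61088 * r ^ 7 + 3570 * r ^ 7 * s - 9956 * r ^ 7 * s ^ 2
  + 71132 * r ^ 8 - 11680 * r ^ 8 * s + 2398 * r ^ 8 * s ^ 2 + 24138 * r ^ 9
  - 16580 * r ^ 9 * s + 153 * r ^ 9 * s ^ 2 + 3564 * r ^ 10 - 1530 * r ^ 10 * s

/-- The coefficient of `q ^ 1` in the symmetrised integrand without the sine product. -/
def symC1 (r s : ℝ) : ℝ :=
  -159936 - 2688 * s ^ 2 - 665376 * r + 203840 * r * s - 769216 * r * s ^ 2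
  - 2240 * r * s ^ 3 + 1167840 * r ^ 2 - 226080 * r ^ 2 * s + 290528 * r ^ 2 * s ^ 2
  - 481600 * r ^ 2 * s ^ 3 + 456352 * r ^ 3 + 1430640 * r ^ 3 * s
  + 144816 * r ^ 3 * s ^ 2 + 1120 * r ^ 3 * s ^ 3 - 761076 * r ^ 4 + 936160 * r ^ 4 * s
  + 120680 * r ^ 4 * s ^ 3 - 259558 * r ^ 5 - 327120 * r ^ 5 * s + 67380 * r ^ 6
  - 105850 * r ^ 6 * s + 19912 * r ^ 7 + 61490 * r ^ 7 * s - 4796 * r ^ 8
  + 7640 * r ^ 8 * s - 306 * r ^ 9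

/-- The coefficient of `q ^ 2` in the symmetrised integrand without the sine product. -/
def symC2 (r s : ℝ) : ℝ :=
  -284032 + 1568 * s ^ 2 + 594752 * r + 6720 * r * s + 289296 * r * s ^ 2
  - 1477504 * r ^ 2 + 1444800 * r ^ 2 * s + 71512 * r ^ 2 * s ^ 2 - 1299728 * r ^ 3
  - 3360 * r ^ 3 * s - 84476 * r ^ 3 * s ^ 2 + 154620 * r ^ 4 - 362040 * r ^ 4 * s
  + 161302 * r ^ 5 - 40024 * r ^ 6 - 4584 * r ^ 7

/-- The coefficient of `q ^ 3` in the symmetrised integrand without the sine product. -/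
def symC3 (r s : ℝ) : ℝ :=
  -3136 - 578592 * r - 143024 * r ^ 2 + 168952 * r ^ 3

/-- The coefficient of the sine product times `q`. -/
def kap0 (r : ℝ) : ℝ :=
  81536 - 90432 * r + 572256 * r ^ 2 + 374464 * r ^ 3 - 130848 * r ^ 4 - 42340 * r ^ 5
  + 24596 * r ^ 6 + 3056 * r ^ 7

/-- The coefficient of the sine product times `q (s ^ 2 - 2 q)`. -/
def kap2 (r : ℝ) : ℝ :=
  -896 - 192640 * r + 448 * r ^ 2 + 48272 * r ^ 3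

/-- The polynomial part of `-aCoef t / t`. -/
def hpol (t : ℝ) : ℝ :=
  -2642944 + 2763904 * t - 2642944 * t ^ 2 + 2707904 * t ^ 3 - 2855680 * t ^ 4
  + 4271424 * t ^ 5 - 5432832 * t ^ 6 + 3272640 * t ^ 7 - 217728 * t ^ 8
  - 369664 * t ^ 9

/-- The sum of `hpol` at two points, in `s` and `q`. -/
def hsum (s q : ℝ) : ℝ :=
  -5285888 + 5285888 * q - 5711360 * q ^ 2 + 10865664 * q ^ 3 - 435456 * q ^ 4
  + 2763904 * s - 8123712 * s * q + 21357120 * s * q ^ 2 - 22908480 * s * q ^ 3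
  - 3326976 * s * q ^ 4 - 2642944 * s ^ 2 + 11422720 * s ^ 2 * q
  - 48895488 * s ^ 2 * q ^ 2 + 3483648 * s ^ 2 * q ^ 3 + 2707904 * s ^ 3
  - 21357120 * s ^ 3 * q + 45816960 * s ^ 3 * q ^ 2 + 11089920 * s ^ 3 * q ^ 3
  - 2855680 * s ^ 4 + 32596992 * s ^ 4 * q - 4354560 * s ^ 4 * q ^ 2 + 4271424 * s ^ 5
  - 22908480 * s ^ 5 * q - 9980928 * s ^ 5 * q ^ 2 - 5432832 * s ^ 6
  + 1741824 * s ^ 6 * q + 3272640 * s ^ 7 + 3326976 * s ^ 7 * q - 217728 * s ^ 8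
  - 369664 * s ^ 9

/-- The coefficient of `q ^ 2` in `q * hsum s q`. -/
def hb2 (s : ℝ) : ℝ :=
  5285888 - 8123712 * s + 11422720 * s ^ 2 - 21357120 * s ^ 3 + 32596992 * s ^ 4
  - 22908480 * s ^ 5 + 1741824 * s ^ 6 + 3326976 * s ^ 7

/-- The coefficient of `q ^ 3` in `q * hsum s q`. -/
def hb3 (s : ℝ) : ℝ :=
  -5711360 + 21357120 * s - 48895488 * s ^ 2 + 45816960 * s ^ 3 - 4354560 * s ^ 4
  - 9980928 * s ^ 5

/-- The coefficient of `q ^ 4` in `q * hsum s q`. -/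
def hb4 (s : ℝ) : ℝ :=
  10865664 - 22908480 * s + 3483648 * s ^ 2 + 11089920 * s ^ 3

/-- The coefficient of `q ^ 5` in `q * hsum s q`. -/
def hb5 (s : ℝ) : ℝ :=
  -435456 - 3326976 * s

/-- The symmetrised integrand on the diagonal. -/
def diagS (r t : ℝ) : ℝ :=
  120960 + 78400 * t ^ 2 - 200704 * t ^ 4 + 1344 * t ^ 6 + 181440 * r - 403200 * r * t
  + 755808 * r * t ^ 2 + 407680 * r * t ^ 3 + 889600 * r * t ^ 4 - 4480 * r * t ^ 5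
  + 193312 * r * t ^ 6 + 240240 * r ^ 2 - 604800 * r ^ 2 * t - 1740096 * r ^ 2 * t ^ 2
  - 452160 * r ^ 2 * t ^ 3 - 906144 * r ^ 2 * t ^ 4 - 963200 * r ^ 2 * t ^ 5
  + 143920 * r ^ 2 * t ^ 6 + 133032 * r ^ 3 - 601440 * r ^ 3 * t
  - 830816 * r ^ 3 * t ^ 2 + 2861280 * r ^ 3 * t ^ 3 - 1021808 * r ^ 3 * t ^ 4
  + 2240 * r ^ 3 * t ^ 5 - 72408 * r ^ 3 * t ^ 6 + 549184 * r ^ 4 - 321680 * r ^ 4 * t
  + 891924 * r ^ 4 * t ^ 2 + 1872320 * r ^ 4 * t ^ 3 + 23772 * r ^ 4 * t ^ 4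
  + 241360 * r ^ 4 * t ^ 5 + 274320 * r ^ 5 - 810640 * r ^ 5 * t
  + 301898 * r ^ 5 * t ^ 2 - 654240 * r ^ 5 * t ^ 3 + 118962 * r ^ 5 * t ^ 4
  - 22716 * r ^ 6 - 483480 * r ^ 6 * t - 91976 * r ^ 6 * t ^ 2 - 211700 * r ^ 6 * t ^ 3
  - 15428 * r ^ 6 * t ^ 4 + 61088 * r ^ 7 + 7140 * r ^ 7 * t - 22968 * r ^ 7 * t ^ 2
  + 122980 * r ^ 7 * t ^ 3 - 1528 * r ^ 7 * t ^ 4 + 71132 * r ^ 8 - 23360 * r ^ 8 * t
  + 4796 * r ^ 8 * t ^ 2 + 15280 * r ^ 8 * t ^ 3 + 24138 * r ^ 9 - 33160 * r ^ 9 * t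
  + 306 * r ^ 9 * t ^ 2 + 3564 * r ^ 10 - 3060 * r ^ 10 * t

/-- The symmetrised integrand on the edge `d = 1`, divided by `1 - c`. -/
def edgeS (r c : ℝ) : ℝ :=
  604800 + 120960 * c - 611520 * c ^ 2 - 122304 * c ^ 3 + 6720 * c ^ 4 + 1344 * c ^ 5
  + 1514496 * r + 787904 * r * c + 3107904 * r * c ^ 2 + 945536 * r * c ^ 3
  + 1438080 * r * c ^ 4 + 286720 * r * c ^ 5 - 2156136 * r ^ 2 - 4321656 * r ^ 2 * c
  - 7222264 * r ^ 2 * c ^ 2 - 1498472 * r ^ 2 * c ^ 3 - 1448160 * r ^ 2 * c ^ 4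
  - 482272 * r ^ 2 * c ^ 5 - 1296204 * r ^ 3 + 2538316 * r ^ 3 * c
  + 803044 * r ^ 3 * c ^ 2 + 265132 * r ^ 3 * c ^ 3 - 358680 * r ^ 3 * c ^ 4
  - 71288 * r ^ 3 * c ^ 5 + 2306646 * r ^ 4 + 3587730 * r ^ 4 * c
  + 5309954 * r ^ 4 * c ^ 2 + 1340470 * r ^ 4 * c ^ 3 + 362040 * r ^ 4 * c ^ 4
  + 120680 * r ^ 4 * c ^ 5 - 3663 * r ^ 5 - 2156201 * r ^ 5 * c
  - 840557 * r ^ 5 * c ^ 2 - 78379 * r ^ 5 * c ^ 3 - 894438 * r ^ 6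
  - 1365512 * r ^ 6 * c - 886282 * r ^ 6 * c ^ 2 - 154968 * r ^ 6 * c ^ 3
  + 164106 * r ^ 7 + 246826 * r ^ 7 * c + 205910 * r ^ 7 * c ^ 2
  + 50006 * r ^ 7 * c ^ 3 + 185550 * r ^ 8 + 49730 * r ^ 8 * c + 26074 * r ^ 8 * c ^ 2
  + 10038 * r ^ 8 * c ^ 3 + 23133 * r ^ 9 - 42029 * r ^ 9 * c - 16121 * r ^ 9 * c ^ 2
  + 153 * r ^ 9 * c ^ 3 + 6102 * r ^ 10 - 2556 * r ^ 10 * c - 1530 * r ^ 10 * c ^ 2

/-- The symmetrised integrand on the edge `d = 0`. -/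
def zeroS (r c : ℝ) : ℝ :=
  120960 + 79968 * c ^ 2 + 672 * c ^ 4 + 181440 * r - 201600 * r * c
  + 332688 * r * c ^ 2 + 192304 * r * c ^ 4 + 240240 * r ^ 2 - 302400 * r ^ 2 * c
  - 583920 * r ^ 2 * c ^ 2 - 72632 * r ^ 2 * c ^ 4 + 133032 * r ^ 3
  - 300720 * r ^ 3 * c - 228176 * r ^ 3 * c ^ 2 - 36204 * r ^ 3 * c ^ 4
  + 549184 * r ^ 4 - 160840 * r ^ 4 * c + 380538 * r ^ 4 * c ^ 2 + 274320 * r ^ 5
  - 405320 * r ^ 5 * c + 129779 * r ^ 5 * c ^ 2 - 22716 * r ^ 6 - 241740 * r ^ 6 * c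
  - 33690 * r ^ 6 * c ^ 2 + 61088 * r ^ 7 + 3570 * r ^ 7 * c - 9956 * r ^ 7 * c ^ 2
  + 71132 * r ^ 8 - 11680 * r ^ 8 * c + 2398 * r ^ 8 * c ^ 2 + 24138 * r ^ 9
  - 16580 * r ^ 9 * c + 153 * r ^ 9 * c ^ 2 + 3564 * r ^ 10 - 1530 * r ^ 10 * c

/-- Minus the second difference of the integrand at the least sum, for `s ≤ 1`. -/
def bendLow (r s : ℝ) : ℝ :=
  1469440 - 212800 * s ^ 2 + 336 * s ^ 4 - 1199616 * r - 26880 * r * s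
  - 1615392 * r * s ^ 2 + 6720 * r * s ^ 3 + 48328 * r * s ^ 4 + 8195456 * r ^ 2
  - 5779200 * r ^ 2 * s - 1044688 * r ^ 2 * s ^ 2 + 1444800 * r ^ 2 * s ^ 3
  + 35980 * r ^ 2 * s ^ 4 + 6310592 * r ^ 3 + 13440 * r ^ 3 * s
  - 370136 * r ^ 3 * s ^ 2 - 3360 * r ^ 3 * s ^ 3 - 18102 * r ^ 3 * s ^ 4
  - 1141872 * r ^ 4 + 1448160 * r ^ 4 * s + 23772 * r ^ 4 * s ^ 2
  - 362040 * r ^ 4 * s ^ 3 - 814568 * r ^ 5 + 118962 * r ^ 5 * s ^ 2 + 258480 * r ^ 6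
  - 15428 * r ^ 6 * s ^ 2 + 30560 * r ^ 7 - 1528 * r ^ 7 * s ^ 2

/-- Minus the second difference of the integrand at the least sum, for `1 ≤ s`. -/
def bendMid (r s : ℝ) : ℝ :=
  1430016 + 39424 * s - 210112 * s ^ 2 - 2688 * s ^ 3 + 336 * s ^ 4 - 8910592 * r
  + 7684096 * r * s - 1228768 * r * s ^ 2 - 379904 * r * s ^ 3 + 48328 * r * s ^ 4
  + 7058432 * r ^ 2 - 4642176 * r ^ 2 * s - 756848 * r ^ 2 * s ^ 2
  + 1156960 * r ^ 2 * s ^ 3 + 35980 * r ^ 2 * s ^ 4 + 8434560 * r ^ 3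
  - 2110528 * r ^ 3 * s - 514952 * r ^ 3 * s ^ 2 + 141456 * r ^ 3 * s ^ 3
  - 18102 * r ^ 3 * s ^ 4 - 1141872 * r ^ 4 + 1448160 * r ^ 4 * s
  + 23772 * r ^ 4 * s ^ 2 - 362040 * r ^ 4 * s ^ 3 - 814568 * r ^ 5
  + 118962 * r ^ 5 * s ^ 2 + 258480 * r ^ 6 - 15428 * r ^ 6 * s ^ 2 + 30560 * r ^ 7
  - 1528 * r ^ 7 * s ^ 2

/-- The quadratic coefficient of the integrand in `q`. -/
def bendT2 (r s : ℝ) : ℝ :=
  -1469440 + 217728 * s ^ 2 - 672 * s ^ 4 + 1199616 * r + 26880 * r * s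
  + 2579264 * r * s ^ 2 - 6720 * r * s ^ 3 - 96656 * r * s ^ 4 - 8195456 * r ^ 2
  + 5779200 * r ^ 2 * s + 1186816 * r ^ 2 * s ^ 2 - 1444800 * r ^ 2 * s ^ 3
  - 71960 * r ^ 2 * s ^ 4 - 6310592 * r ^ 3 - 13440 * r ^ 3 * s
  + 104640 * r ^ 3 * s ^ 2 + 3360 * r ^ 3 * s ^ 3 + 36204 * r ^ 3 * s ^ 4
  + 1141872 * r ^ 4 - 1448160 * r ^ 4 * s - 23772 * r ^ 4 * s ^ 2
  + 362040 * r ^ 4 * s ^ 3 + 814568 * r ^ 5 - 118962 * r ^ 5 * s ^ 2 - 258480 * r ^ 6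
  + 15428 * r ^ 6 * s ^ 2 - 30560 * r ^ 7 + 1528 * r ^ 7 * s ^ 2

/-- The cubic coefficient of the integrand in `q`. -/
def bendT3 (r s : ℝ) : ℝ :=
  -19712 + 1344 * s ^ 2 - 3855488 * r + 193312 * r * s ^ 2 - 568512 * r ^ 2
  + 143920 * r ^ 2 * s ^ 2 + 1061984 * r ^ 3 - 72408 * r ^ 3 * s ^ 2

/-- Minus the second difference of the integrand for equal cosines. -/
def bendHigh (r s : ℝ) : ℝ :=
  1469440 - 202944 * s ^ 2 - 336 * s ^ 4 - 1199616 * r - 26880 * r * s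
  + 312352 * r * s ^ 2 + 6720 * r * s ^ 3 - 48328 * r * s ^ 4 + 8195456 * r ^ 2
  - 5779200 * r ^ 2 * s - 760432 * r ^ 2 * s ^ 2 + 1444800 * r ^ 2 * s ^ 3
  - 35980 * r ^ 2 * s ^ 4 + 6310592 * r ^ 3 + 13440 * r ^ 3 * s
  - 901128 * r ^ 3 * s ^ 2 - 3360 * r ^ 3 * s ^ 3 + 18102 * r ^ 3 * s ^ 4
  - 1141872 * r ^ 4 + 1448160 * r ^ 4 * s + 23772 * r ^ 4 * s ^ 2
  - 362040 * r ^ 4 * s ^ 3 - 814568 * r ^ 5 + 118962 * r ^ 5 * s ^ 2 + 258480 * r ^ 6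
  - 15428 * r ^ 6 * s ^ 2 + 30560 * r ^ 7 - 1528 * r ^ 7 * s ^ 2

/-- The quotient of the defect on the diagonal by `(r - 2 t) ^ 2`. -/
def diagJ (r t : ℝ) : ℝ :=
  483840 * t + 483840 * t ^ 2 + 259840 * t ^ 3 - 591104 * t ^ 4 + 5662976 * t ^ 5
  - 4645632 * t ^ 6 - 8640768 * t ^ 7 + 12219648 * t ^ 8 - 2349568 * t ^ 9
  - 1478656 * t ^ 10 + 120960 * r + 846720 * r * t + 985600 * r * t ^ 2
  - 201344 * r * t ^ 3 + 4776320 * r * t ^ 4 + 3848832 * r * t ^ 5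
  - 15609216 * r * t ^ 6 - 741504 * r * t ^ 7 + 15979904 * r * t ^ 8
  - 5003008 * r * t ^ 9 - 2217984 * r * t ^ 10 + 181440 * r ^ 2 + 739200 * r ^ 2 * t
  + 309312 * r ^ 2 * t ^ 2 + 3555456 * r ^ 2 * t ^ 3 + 4566912 * r ^ 2 * t ^ 4
  - 9201792 * r ^ 2 * t ^ 5 - 7280640 * r ^ 2 * t ^ 6 + 10086720 * r ^ 2 * t ^ 7
  + 4531392 * r ^ 2 * t ^ 8 - 3980160 * r ^ 2 * t ^ 9 - 1108992 * r ^ 2 * t ^ 10
  + 240240 * r ^ 3 + 167568 * r ^ 3 * t + 2371680 * r ^ 3 * t ^ 2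
  + 3587008 * r ^ 3 * t ^ 3 - 5373040 * r ^ 3 * t ^ 4 - 6387056 * r ^ 3 * t ^ 5
  + 5511040 * r ^ 3 * t ^ 6 + 4702048 * r ^ 3 * t ^ 7 - 1898208 * r ^ 3 * t ^ 8
  - 1402688 * r ^ 3 * t ^ 9 - 184832 * r ^ 3 * t ^ 10 + 133032 * r ^ 4
  + 1728328 * r ^ 4 * t + 2769600 * r ^ 4 * t ^ 2 - 2851312 * r ^ 4 * t ^ 3
  - 4519688 * r ^ 4 * t ^ 4 + 3037688 * r ^ 4 * t ^ 5 + 3569200 * r ^ 4 * t ^ 6
  - 903168 * r ^ 4 * t ^ 7 - 1125440 * r ^ 4 * t ^ 8 - 184832 * r ^ 4 * t ^ 9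
  + 549184 * r ^ 5 + 1324784 * r ^ 5 * t - 1847628 * r ^ 5 * t ^ 2
  - 3390260 * r ^ 5 * t ^ 3 + 1455108 * r ^ 5 * t ^ 4 + 2429668 * r ^ 5 * t ^ 5
  - 428616 * r ^ 5 * t ^ 6 - 774768 * r ^ 5 * t ^ 7 - 138624 * r ^ 5 * t ^ 8
  + 274320 * r ^ 6 - 627184 * r ^ 6 * t - 1800470 * r ^ 6 * t ^ 2
  + 440794 * r ^ 6 * t ^ 3 + 1519826 * r ^ 6 * t ^ 4 - 220926 * r ^ 6 * t ^ 5
  - 493408 * r ^ 6 * t ^ 6 - 92416 * r ^ 6 * t ^ 7 - 22716 * r ^ 7 - 261844 * r ^ 7 * t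
  + 551040 * r ^ 7 * t ^ 2 + 978692 * r ^ 7 * t ^ 3 - 53432 * r ^ 7 * t ^ 4
  - 299716 * r ^ 7 * t ^ 5 - 57760 * r ^ 7 * t ^ 6 + 61088 * r ^ 8 + 352756 * r ^ 8 * t
  + 464916 * r ^ 8 * t ^ 2 + 31540 * r ^ 8 * t ^ 3 - 176364 * r ^ 8 * t ^ 4
  - 34656 * r ^ 8 * t ^ 5 + 71132 * r ^ 9 + 144324 * r ^ 9 * t - 11884 * r ^ 9 * t ^ 2
  - 105292 * r ^ 9 * t ^ 3 - 20216 * r ^ 9 * t ^ 4 + 24138 * r ^ 10 + 5234 * r ^ 10 * t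
  - 30838 * r ^ 10 * t ^ 2 - 11934 * r ^ 10 * t ^ 3 + 3564 * r ^ 11 + 504 * r ^ 11 * t
  - 3060 * r ^ 11 * t ^ 2

/-- The constant coefficient on the edge `d = 1`, divided by `1 - c`. -/
def edge0 (c : ℝ) : ℝ :=
  454392 + 1296156 * c - 3160980 * c ^ 2 - 11850084 * c ^ 3 - 6697019 * c ^ 4
  - 3071281 * c ^ 5 + 101506843 * c ^ 6 + 142527709 * c ^ 7 - 96411574 * c ^ 8
  - 132771214 * c ^ 9 + 22346786 * c ^ 10 + 68098294 * c ^ 11 + 30284361 * c ^ 12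
  + 5634515 * c ^ 13 + 399111 * c ^ 14 + 1377 * c ^ 15

/-- The linear coefficient on the edge `d = 1`, divided by `1 - c`. -/
def edge1 (c : ℝ) : ℝ :=
  1420788 - 5889384 * c - 17286024 * c ^ 2 + 3790492 * c ^ 3 + 53972204 * c ^ 4
  + 62278894 * c ^ 5 + 141873950 * c ^ 6 + 131036920 * c ^ 7 - 104723108 * c ^ 8
  - 53690364 * c ^ 9 + 77755700 * c ^ 10 + 61570620 * c ^ 11 + 15830132 * c ^ 12
  + 1479846 * c ^ 13 + 18054 * c ^ 14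

/-- The coefficient of `(r - 1 - c) ^ 2` on the edge `d = 1`. -/
def edge2 (c : ℝ) : ℝ :=
  5626944 + 32543928 * c + 122522410 * c ^ 2 + 223378744 * c ^ 3 + 236822282 * c ^ 4
  + 226248974 * c ^ 5 + 282338402 * c ^ 6 + 183220896 * c ^ 7 - 24991244 * c ^ 8
  - 28726252 * c ^ 9 - 60010178 * c ^ 10 - 62536488 * c ^ 11 - 22926158 * c ^ 12
  - 3141258 * c ^ 13 - 109242 * c ^ 14

/-- The coefficient of `(r - 1 - c) ^ 3` on the edge `d = 1`. -/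
def edge3 (c : ℝ) : ℝ :=
  21714936 + 147889360 * c + 418084540 * c ^ 2 + 724512448 * c ^ 3 + 1034143814 * c ^ 4
  + 1229866912 * c ^ 5 + 969687816 * c ^ 6 + 312634144 * c ^ 7 - 202180236 * c ^ 8
  - 289559872 * c ^ 9 - 164377684 * c ^ 10 - 50047808 * c ^ 11 - 7467810 * c ^ 12
  - 403920 * c ^ 13

/-- The coefficient of `(r - 1 - c) ^ 4` on the edge `d = 1`. -/
def edge4 (c : ℝ) : ℝ :=
  50575293 + 309756330 * c + 881098444 * c ^ 2 + 1708195370 * c ^ 3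
  + 2403888573 * c ^ 4 + 2170405322 * c ^ 5 + 928063710 * c ^ 6 - 240480454 * c ^ 7
  - 571194555 * c ^ 8 - 347141708 * c ^ 9 - 107431170 * c ^ 10 - 16752780 * c ^ 11
  - 1018215 * c ^ 12

/-- The coefficient of `(r - 1 - c) ^ 5` on the edge `d = 1`. -/
def edge5 (c : ℝ) : ℝ :=
  78855312 + 470786462 * c + 1372151136 * c ^ 2 + 2482766790 * c ^ 3
  + 2735635570 * c ^ 4 + 1521123492 * c ^ 5 - 64776754 * c ^ 6 - 708213296 * c ^ 7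
  - 496644258 * c ^ 8 - 167566938 * c ^ 9 - 28172430 * c ^ 10 - 1847934 * c ^ 11

/-- The coefficient of `(r - 1 - c) ^ 6` on the edge `d = 1`. -/
def edge6 (c : ℝ) : ℝ :=
  91647246 + 534369998 * c + 1418263388 * c ^ 2 + 2053036860 * c ^ 3
  + 1508479098 * c ^ 4 + 198258074 * c ^ 5 - 573015548 * c ^ 6 - 496011280 * c ^ 7
  - 187895004 * c ^ 8 - 34658580 * c ^ 9 - 2484108 * c ^ 10

/-- The coefficient of `(r - 1 - c) ^ 7` on the edge `d = 1`. -/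
def edge7 (c : ℝ) : ℝ :=
  79794162 + 419339000 * c + 904873796 * c ^ 2 + 925070392 * c ^ 3 + 291539174 * c ^ 4
  - 290300160 * c ^ 5 - 345384712 * c ^ 6 - 152275200 * c ^ 7 - 31492692 * c ^ 8
  - 2504304 * c ^ 9

/-- The coefficient of `(r - 1 - c) ^ 8` on the edge `d = 1`. -/
def edge8 (c : ℝ) : ℝ :=
  49251024 + 213660466 * c + 340557074 * c ^ 2 + 193307178 * c ^ 3 - 77051251 * c ^ 4
  - 163244718 * c ^ 5 - 88189728 * c ^ 6 - 21049182 * c ^ 7 - 1893375 * c ^ 8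

/-- The coefficient of `(r - 1 - c) ^ 9` on the edge `d = 1`. -/
def edge9 (c : ℝ) : ℝ :=
  20404062 + 67939100 * c + 70041226 * c ^ 2 - 79640 * c ^ 3 - 48843708 * c ^ 4
  - 35354770 * c ^ 5 - 10157180 * c ^ 6 - 1060290 * c ^ 7

/-- The coefficient of `(r - 1 - c) ^ 10` on the edge `d = 1`. -/
def edge10 (c : ℝ) : ℝ :=
  5477106 + 13096154 * c + 6178654 * c ^ 2 - 7645560 * c ^ 3 - 9182294 * c ^ 4
  - 3404610 * c ^ 5 - 427482 * c ^ 6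

/-- The coefficient of `(r - 1 - c) ^ 11` on the edge `d = 1`. -/
def edge11 (c : ℝ) : ℝ :=
  939102 + 1514624 * c - 138324 * c ^ 2 - 1333472 * c ^ 3 - 737130 * c ^ 4
  - 117504 * c ^ 5

/-- The coefficient of `(r - 1 - c) ^ 12` on the edge `d = 1`. -/
def edge12 (c : ℝ) : ℝ :=
  102459 + 106528 * c - 65170 * c ^ 2 - 88976 * c ^ 3 - 19737 * c ^ 4

/-- The coefficient of `(r - 1 - c) ^ 13` on the edge `d = 1`. -/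
def edge13 (c : ℝ) : ℝ :=
  6102 + 3546 * c - 4086 * c ^ 2 - 1530 * c ^ 3

/-- The marginal terms on the edge `d = 1`, times `1 + c`. -/
def edgeSig (c : ℝ) : ℝ :=
  175552 + 296512 * c + 120960 * c ^ 2 + 64960 * c ^ 3 - 147776 * c ^ 4
  + 1415744 * c ^ 5 - 1161408 * c ^ 6 - 2160192 * c ^ 7 + 3054912 * c ^ 8
  - 587392 * c ^ 9 - 369664 * c ^ 10

end Vale.Agent.P219.CH.Eleven
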