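import Mathlib
import Vale.Agent.P219.Eleven.Defs

/-!
# P219, dimension eleven: inequalities in one variable
-/

noncomputable section

namespace Vale.Agent.P219.CH.Eleven

/-- The marginal coefficient is nonpositive. -/
theorem aNum_ge {t : ℝ} (h0 : 0 ≤ t) (h1 : t ≤ 1) :
    0 ≤ (1 + t) * hpol t + 2642944 := by
  obtain ⟨u, hu⟩ : ∃ u, u = t - 0 := ⟨_, rfl⟩
  obtain ⟨v, hv⟩ : ∃ v, v = 1 - t := ⟨_, rfl⟩
  have hu0 : 0 ≤ u := by linarith
  have hv0 : 0 ≤ v := by linarith
  rw [← sub_nonneg]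
  unfold hpol
  calc (0 : ℝ) ≤ 120960 * u * v ^ 9
      + 1209600 * u ^ 2 * v ^ 8
      + 5387200 * u ^ 3 * v ^ 7
      + 13854464 * u ^ 4 * v ^ 6
      + 23907968 * u ^ 5 * v ^ 5
      + 29682432 * u ^ 6 * v ^ 4
      + 23604096 * u ^ 7 * v ^ 3
      + 10652288 * u ^ 8 * v ^ 2
      + 3099328 * u ^ 9 * v
      + 351104 * u ^ 10 := by positivity
    _ = _ := by rw [hu, hv]; ring

/-- Below the threshold the marginal terms suffice. -/
theorem threshold {c : ℝ} (h0 : 0 ≤ c) (h1 : c ≤ 1) :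
    181440 * (24 / 25 + 31 / 50 * c + 17 / 50 * c ^ 2) * (1 + c) ≤ edgeSig c := by
  rcases le_total c (1 / 2) with h | h
  · obtain ⟨u, hu⟩ : ∃ u, u = c - 0 := ⟨_, rfl⟩
    obtain ⟨v, hv⟩ : ∃ v, v = (1 / 2) - c := ⟨_, rfl⟩
    have hu0 : 0 ≤ u := by linarith
    have hv0 : 0 ≤ v := by linarith
    rw [← sub_nonneg]
    unfold edgeSig
    calc (0 : ℝ) ≤ (7012352 / 5) * v ^ 10
        + (95305728 / 5) * u * v ^ 9
        + 94814208 * u ^ 2 * v ^ 8
        + (1205137408 / 5) * u ^ 3 * v ^ 7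
        + (1647771648 / 5) * u ^ 4 * v ^ 6
        + (1111832576 / 5) * u ^ 5 * v ^ 5
        + (280439808 / 5) * u ^ 6 * v ^ 4
        + 15285760 * u ^ 7 * v ^ 3
        + (158843648 / 5) * u ^ 8 * v ^ 2
        + (100731648 / 5) * u ^ 9 * v
        + (19449344 / 5) * u ^ 10 := by positivity
      _ = _ := by rw [hu, hv]; ring
  · obtain ⟨u, hu⟩ : ∃ u, u = c - (1 / 2) := ⟨_, rfl⟩
    obtain ⟨v, hv⟩ : ∃ v, v = 1 - c := ⟨_, rfl⟩
    have hu0 : 0 ≤ u := by linarith
    have hv0 : 0 ≤ v := by linarith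
    rw [← sub_nonneg]
    unfold edgeSig
    calc (0 : ℝ) ≤ (19449344 / 5) * v ^ 10
        + (288255232 / 5) * u * v ^ 9
        + (1846555904 / 5) * u ^ 2 * v ^ 8
        + (6631082496 / 5) * u ^ 3 * v ^ 7
        + (14659053568 / 5) * u ^ 4 * v ^ 6
        + (20759887872 / 5) * u ^ 5 * v ^ 5
        + (19109834752 / 5) * u ^ 6 * v ^ 4
        + (11430375424 / 5) * u ^ 7 * v ^ 3
        + (4321386496 / 5) * u ^ 8 * v ^ 2
        + (876576768 / 5) * u ^ 9 * v
        + (28049408 / 5) * u ^ 10 := by positivity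
      _ = _ := by rw [hu, hv]; ring

/-- The square coefficient dominates a linear function. -/
theorem edgeLin {c : ℝ} (h0 : 0 ≤ c) (h1 : c ≤ 1) :
    3000000 + 22000000 * c ≤ edge2 c + (24 / 25 + 31 / 50 * c + 17 / 50 * c ^ 2 - (1 + c)) * edge3 c := by
  obtain ⟨u, hu⟩ : ∃ u, u = c - 0 := ⟨_, rfl⟩
  obtain ⟨v, hv⟩ : ∃ v, v = 1 - c := ⟨_, rfl⟩
  have hu0 : 0 ≤ u := by linarith
  have hv0 : 0 ≤ v := by linarith
  rw [← sub_nonneg]
  unfold edge2 edge3
  calc (0 : ℝ) ≤ (43958664 / 25) * v ^ 15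
      + (568796908 / 25) * u * v ^ 14
      + (4772100738 / 25) * u ^ 2 * v ^ 13
      + (32423195668 / 25) * u ^ 3 * v ^ 12
      + (165450252174 / 25) * u ^ 4 * v ^ 11
      + (608245180991 / 25) * u ^ 5 * v ^ 10
      + (325130503023 / 5) * u ^ 6 * v ^ 9
      + (3231629505168 / 25) * u ^ 7 * v ^ 8
      + (4884716807972 / 25) * u ^ 8 * v ^ 7
      + (5714688850848 / 25) * u ^ 9 * v ^ 6
      + (5231781899024 / 25) * u ^ 10 * v ^ 5
      + (3739706771616 / 25) * u ^ 11 * v ^ 4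
      + (2030103640128 / 25) * u ^ 12 * v ^ 3
      + (779920104896 / 25) * u ^ 13 * v ^ 2
      + (36701443264 / 5) * u ^ 14 * v
      + (3768510144 / 5) * u ^ 15 := by positivity
    _ = _ := by rw [hu, hv]; ring

/-- The cubic coefficient is nonnegative. -/
theorem edge3_nonneg {c : ℝ} (h0 : 0 ≤ c) (h1 : c ≤ 1) :
    0 ≤ edge3 c := by
  obtain ⟨u, hu⟩ : ∃ u, u = c - 0 := ⟨_, rfl⟩
  obtain ⟨v, hv⟩ : ∃ v, v = 1 - c := ⟨_, rfl⟩
  have hu0 : 0 ≤ u := by linarith
  have hv0 : 0 ≤ v := by linarith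
  rw [← sub_nonneg]
  unfold edge3
  calc (0 : ℝ) ≤ 21714936 * v ^ 13
      + 430183528 * u * v ^ 12
      + 3886521868 * u ^ 2 * v ^ 11
      + 21294611844 * u ^ 3 * v ^ 10
      + 79335756434 * u ^ 4 * v ^ 9
      + 213276526330 * u ^ 5 * v ^ 8
      + 427338395672 * u ^ 6 * v ^ 7
      + 647620073144 * u ^ 7 * v ^ 6
      + 742019426528 * u ^ 8 * v ^ 5
      + 632567853792 * u ^ 9 * v ^ 4
      + 387259538112 * u ^ 10 * v ^ 3
      + 159468237312 * u ^ 11 * v ^ 2
      + 38941032960 * u ^ 12 * v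
      + 4144496640 * u ^ 13 := by positivity
    _ = _ := by rw [hu, hv]; ring

/-- A pair of higher coefficients. -/
theorem edge4_pair {c : ℝ} (h0 : 0 ≤ c) (h1 : c ≤ 1) :
    1 / 4 * edge5 c ≤ edge4 c := by
  obtain ⟨u, hu⟩ : ∃ u, u = c - 0 := ⟨_, rfl⟩
  obtain ⟨v, hv⟩ : ∃ v, v = 1 - c := ⟨_, rfl⟩
  have hu0 : 0 ≤ u := by linarith
  have hv0 : 0 ≤ v := by linarith
  rw [← sub_nonneg]
  unfold edge4 edge5
  calc (0 : ℝ) ≤ 30861465 * v ^ 12
      + (1124794589 / 2) * u * v ^ 11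
      + (9375148419 / 2) * u ^ 2 * v ^ 10
      + 23820916870 * u ^ 3 * v ^ 9
      + (165373041001 / 2) * u ^ 4 * v ^ 8
      + 207089359368 * u ^ 5 * v ^ 7
      + (766450377889 / 2) * u ^ 6 * v ^ 6
      + 525304213232 * u ^ 7 * v ^ 5
      + 525126964982 * u ^ 8 * v ^ 4
      + 369527683440 * u ^ 9 * v ^ 3
      + 171546305632 * u ^ 10 * v ^ 2
      + 46369303616 * u ^ 11 * v
      + 5369439872 * u ^ 12 := by positivity
    _ = _ := by rw [hu, hv]; ring

/-- A higher coefficient is nonnegative. -/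
theorem edge5_nonneg {c : ℝ} (h0 : 0 ≤ c) (h1 : c ≤ 1) :
    0 ≤ edge5 c := by
  obtain ⟨u, hu⟩ : ∃ u, u = c - 0 := ⟨_, rfl⟩
  obtain ⟨v, hv⟩ : ∃ v, v = 1 - c := ⟨_, rfl⟩
  have hu0 : 0 ≤ u := by linarith
  have hv0 : 0 ≤ v := by linarith
  rw [← sub_nonneg]
  unfold edge5
  calc (0 : ℝ) ≤ 78855312 * v ^ 11
      + 1338194894 * u * v ^ 10
      + 10417057916 * u ^ 2 * v ^ 9
      + 49028644284 * u ^ 3 * v ^ 8
      + 154511839186 * u ^ 4 * v ^ 7
      + 340745049190 * u ^ 5 * v ^ 6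
      + 533505637112 * u ^ 6 * v ^ 5
      + 589104128680 * u ^ 7 * v ^ 4
      + 445993587392 * u ^ 8 * v ^ 3
      + 218147996288 * u ^ 9 * v ^ 2
      + 61052981504 * u ^ 10 * v
      + 7194097152 * u ^ 11 := by positivity
    _ = _ := by rw [hu, hv]; ring

/-- A pair of higher coefficients. -/
theorem edge6_pair {c : ℝ} (h0 : 0 ≤ c) (h1 : c ≤ 1) :
    1 / 4 * edge7 c ≤ edge6 c := by
  obtain ⟨u, hu⟩ : ∃ u, u = c - 0 := ⟨_, rfl⟩
  obtain ⟨v, hv⟩ : ∃ v, v = 1 - c := ⟨_, rfl⟩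
  have hu0 : 0 ≤ u := by linarith
  have hv0 : 0 ≤ v := by linarith
  rw [← sub_nonneg]
  unfold edge6 edge7
  calc (0 : ℝ) ≤ (143397411 / 2) * v ^ 10
      + 1146522303 * u * v ^ 9
      + (16568607837 / 2) * u ^ 2 * v ^ 8
      + 35425242362 * u ^ 3 * v ^ 7
      + (197405852835 / 2) * u ^ 4 * v ^ 6
      + 186085585061 * u ^ 5 * v ^ 5
      + (477569300141 / 2) * u ^ 6 * v ^ 4
      + 204216843516 * u ^ 7 * v ^ 3
      + 110092503686 * u ^ 8 * v ^ 2
      + 33124698944 * u ^ 9 * v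
      + 4060325280 * u ^ 10 := by positivity
    _ = _ := by rw [hu, hv]; ring

/-- A higher coefficient is nonnegative. -/
theorem edge7_nonneg {c : ℝ} (h0 : 0 ≤ c) (h1 : c ≤ 1) :
    0 ≤ edge7 c := by
  obtain ⟨u, hu⟩ : ∃ u, u = c - 0 := ⟨_, rfl⟩
  obtain ⟨v, hv⟩ : ∃ v, v = 1 - c := ⟨_, rfl⟩
  have hu0 : 0 ≤ u := by linarith
  have hv0 : 0 ≤ v := by linarith
  rw [← sub_nonneg]
  unfold edge7
  calc (0 : ℝ) ≤ 79794162 * v ^ 9
      + 1137486458 * u * v ^ 8
      + 7132175628 * u ^ 2 * v ^ 7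
      + 25703388572 * u ^ 3 * v ^ 6
      + 58381359654 * u ^ 4 * v ^ 5
      + 86121828862 * u ^ 5 * v ^ 4
      + 81766490696 * u ^ 6 * v ^ 3
      + 47477648872 * u ^ 7 * v ^ 2
      + 14881696384 * u ^ 8 * v
      + 1798659456 * u ^ 9 := by positivity
    _ = _ := by rw [hu, hv]; ring

/-- A pair of higher coefficients. -/
theorem edge8_pair {c : ℝ} (h0 : 0 ≤ c) (h1 : c ≤ 1) :
    1 / 4 * edge9 c ≤ edge8 c := by
  obtain ⟨u, hu⟩ : ∃ u, u = c - 0 := ⟨_, rfl⟩
  obtain ⟨v, hv⟩ : ∃ v, v = 1 - c := ⟨_, rfl⟩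
  have hu0 : 0 ≤ u := by linarith
  have hv0 : 0 ≤ v := by linarith
  rw [← sub_nonneg]
  unfold edge8 edge9
  calc (0 : ℝ) ≤ (88300017 / 2) * v ^ 8
      + 549875759 * u * v ^ 7
      + (5871953685 / 2) * u ^ 2 * v ^ 6
      + 8734197680 * u ^ 3 * v ^ 5
      + (31443292817 / 2) * u ^ 4 * v ^ 4
      + (34672977139 / 2) * u ^ 5 * v ^ 3
      + 11207451688 * u ^ 6 * v ^ 2
      + 3720181602 * u ^ 7 * v
      + 429625288 * u ^ 8 := by positivity
    _ = _ := by rw [hu, hv]; ring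

/-- A higher coefficient is nonnegative. -/
theorem edge9_nonneg {c : ℝ} (h0 : 0 ≤ c) (h1 : c ≤ 1) :
    0 ≤ edge9 c := by
  obtain ⟨u, hu⟩ : ∃ u, u = c - 0 := ⟨_, rfl⟩
  obtain ⟨v, hv⟩ : ∃ v, v = 1 - c := ⟨_, rfl⟩
  have hu0 : 0 ≤ u := by linarith
  have hv0 : 0 ≤ v := by linarith
  rw [← sub_nonneg]
  unfold edge9
  calc (0 : ℝ) ≤ 20404062 * v ^ 7
      + 210767534 * u * v ^ 6
      + 906161128 * u ^ 2 * v ^ 5
      + 2083355160 * u ^ 3 * v ^ 4
      + 2724174162 * u ^ 4 * v ^ 3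
      + 1965620328 * u ^ 5 * v ^ 2
      + 672952760 * u ^ 6 * v
      + 62888800 * u ^ 7 := by positivity
    _ = _ := by rw [hu, hv]; ring

/-- A pair of higher coefficients. -/
theorem edge10_pair {c : ℝ} (h0 : 0 ≤ c) (h1 : c ≤ 1) :
    1 / 4 * edge11 c ≤ edge10 c := by
  obtain ⟨u, hu⟩ : ∃ u, u = c - 0 := ⟨_, rfl⟩
  obtain ⟨v, hv⟩ : ∃ v, v = 1 - c := ⟨_, rfl⟩
  have hu0 : 0 ≤ u := by linarith
  have hv0 : 0 ≤ v := by linarith
  rw [← sub_nonneg]
  unfold edge10 edge11
  calc (0 : ℝ) ≤ (10484661 / 2) * v ^ 6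
      + 44171481 * u * v ^ 5
      + (296871365 / 2) * u ^ 2 * v ^ 4
      + 249562338 * u ^ 3 * v ^ 3
      + 212154760 * u ^ 4 * v ^ 2
      + 76586580 * u ^ 5 * v
      + 4060144 * u ^ 6 := by positivity
    _ = _ := by rw [hu, hv]; ring

/-- A higher coefficient is nonnegative. -/
theorem edge11_nonneg {c : ℝ} (h0 : 0 ≤ c) (h1 : c ≤ 1) :
    0 ≤ edge11 c := by
  obtain ⟨u, hu⟩ : ∃ u, u = c - 0 := ⟨_, rfl⟩
  obtain ⟨v, hv⟩ : ∃ v, v = 1 - c := ⟨_, rfl⟩
  have hu0 : 0 ≤ u := by linarith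
  have hv0 : 0 ≤ v := by linarith
  rw [← sub_nonneg]
  unfold edge11
  calc (0 : ℝ) ≤ 939102 * v ^ 5
      + 6210134 * u * v ^ 4
      + 15311192 * u ^ 2 * v ^ 3
      + 16730320 * u ^ 3 * v ^ 2
      + 6934960 * u ^ 4 * v
      + 127296 * u ^ 5 := by positivity
    _ = _ := by rw [hu, hv]; ring

/-- A pair of higher coefficients. -/
theorem edge12_pair {c : ℝ} (h0 : 0 ≤ c) (h1 : c ≤ 1) :
    1 / 4 * edge13 c ≤ edge12 c := by
  obtain ⟨u, hu⟩ : ∃ u, u = c - 0 := ⟨_, rfl⟩
  obtain ⟨v, hv⟩ : ∃ v, v = 1 - c := ⟨_, rfl⟩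
  have hu0 : 0 ≤ u := by linarith
  have hv0 : 0 ≤ v := by linarith
  rw [← sub_nonneg]
  unfold edge12 edge13
  calc (0 : ℝ) ≤ (201867 / 2) * v ^ 4
      + (1018751 / 2) * u * v ^ 3
      + 858377 * u ^ 2 * v ^ 2
      + 503768 * u ^ 3 * v
      + 34096 * u ^ 4 := by positivity
    _ = _ := by rw [hu, hv]; ring

/-- A higher coefficient is nonnegative. -/
theorem edge13_nonneg {c : ℝ} (h0 : 0 ≤ c) (h1 : c ≤ 1) :
    0 ≤ edge13 c := by
  obtain ⟨u, hu⟩ : ∃ u, u = c - 0 := ⟨_, rfl⟩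
  obtain ⟨v, hv⟩ : ∃ v, v = 1 - c := ⟨_, rfl⟩
  have hu0 : 0 ≤ u := by linarith
  have hv0 : 0 ≤ v := by linarith
  rw [← sub_nonneg]
  unfold edge13
  calc (0 : ℝ) ≤ 6102 * v ^ 3
      + 21852 * u * v ^ 2
      + 21312 * u ^ 2 * v
      + 4032 * u ^ 3 := by positivity
    _ = _ := by rw [hu, hv]; ring

/-- The constant coefficient is positive. -/
theorem edge0_ge {c : ℝ} (h0 : 0 ≤ c) (h1 : c ≤ 1) :
    1 ≤ edge0 c := by
  rcases le_total c (1 / 4) with h | h
  · obtain ⟨u, hu⟩ : ∃ u, u = c - 0 := ⟨_, rfl⟩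
    obtain ⟨v, hv⟩ : ∃ v, v = (1 / 4) - c := ⟨_, rfl⟩
    have hu0 : 0 ≤ u := by linarith
    have hv0 : 0 ≤ v := by linarith
    rw [← sub_nonneg]
    unfold edge0
    calc (0 : ℝ) ≤ 487898621149184 * v ^ 15
        + 7666413544144896 * u * v ^ 14
        + 55888304620437504 * u ^ 2 * v ^ 13
        + 250699388752494592 * u ^ 3 * v ^ 12
        + 773669727502336000 * u ^ 4 * v ^ 11
        + 1739338847456591872 * u ^ 5 * v ^ 10
        + 2941535109809700864 * u ^ 6 * v ^ 9
        + 3808520599368171520 * u ^ 7 * v ^ 8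
        + 3803639700924301312 * u ^ 8 * v ^ 7
        + 2927894191690522624 * u ^ 9 * v ^ 6
        + 1721304836732864512 * u ^ 10 * v ^ 5
        + 758176879534669312 * u ^ 11 * v ^ 4
        + 241905513266002496 * u ^ 12 * v ^ 3
        + 52712347416512496 * u ^ 13 * v ^ 2
        + 7005027147320636 * u ^ 14 * v
        + 427450861006573 * u ^ 15 := by positivity
      _ = _ := by rw [hu, hv]; ring
  · rcases le_total c (1 / 2) with h | h
    · obtain ⟨u, hu⟩ : ∃ u, u = c - (1 / 4) := ⟨_, rfl⟩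
      obtain ⟨v, hv⟩ : ∃ v, v = (1 / 2) - c := ⟨_, rfl⟩
      have hu0 : 0 ≤ u := by linarith
      have hv0 : 0 ≤ v := by linarith
      rw [← sub_nonneg]
      unfold edge0
      calc (0 : ℝ) ≤ 427450861006573 * v ^ 15
          + 5818498682876554 * u * v ^ 14
          + 36100948914295348 * u ^ 2 * v ^ 13
          + 134706772002536616 * u ^ 3 * v ^ 12
          + 335584706488370448 * u ^ 4 * v ^ 11
          + 585185047586125088 * u ^ 5 * v ^ 10
          + 727262683075280960 * u ^ 6 * v ^ 9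
          + 643264754310227072 * u ^ 7 * v ^ 8
          + 400888803441731328 * u ^ 8 * v ^ 7
          + 182760445406633472 * u ^ 9 * v ^ 6
          + 82965538908904448 * u ^ 10 * v ^ 5
          + 56667172237604864 * u ^ 11 * v ^ 4
          + 38665923471192064 * u ^ 12 * v ^ 3
          + 17409526286540800 * u ^ 13 * v ^ 2
          + 4392062997938176 * u ^ 14 * v
          + 475901646176256 * u ^ 15 := by positivity
        _ = _ := by rw [hu, hv]; ring
    · obtain ⟨u, hu⟩ : ∃ u, u = c - (1 / 2) := ⟨_, rfl⟩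
      obtain ⟨v, hv⟩ : ∃ v, v = 1 - c := ⟨_, rfl⟩
      have hu0 : 0 ≤ u := by linarith
      have hv0 : 0 ≤ v := by linarith
      rw [← sub_nonneg]
      unfold edge0
      calc (0 : ℝ) ≤ 14523365667 * v ^ 15
          + 385481203676 * u * v ^ 14
          + 4590816313352 * u ^ 2 * v ^ 13
          + 32312354906720 * u ^ 3 * v ^ 12
          + 150894587118832 * u ^ 4 * v ^ 11
          + 498164727503680 * u ^ 5 * v ^ 10
          + 1207939881810432 * u ^ 6 * v ^ 9
          + 2201586325917696 * u ^ 7 * v ^ 8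
          + 3054740819193856 * u ^ 8 * v ^ 7
          + 3240869004525568 * u ^ 9 * v ^ 6
          + 2619438182465536 * u ^ 10 * v ^ 5
          + 1591869525295104 * u ^ 11 * v ^ 4
          + 708044549554176 * u ^ 12 * v ^ 3
          + 218943076401152 * u ^ 13 * v ^ 2
          + 42353007558656 * u ^ 14 * v
          + 3885871628288 * u ^ 15 := by positivity
        _ = _ := by rw [hu, hv]; ring

/-- The discriminant of the line inequality on the edge. -/
theorem edge_disc {c : ℝ} (h0 : 0 ≤ c) (h1 : c ≤ 1) :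
    (1 - c) * edge1 c ^ 2 + 1 ≤ 4 * edge0 c * (3000000 + 22000000 * c) := by
  rcases le_total c (1 / 2) with h | h
  · obtain ⟨u, hu⟩ : ∃ u, u = c - 0 := ⟨_, rfl⟩
    obtain ⟨v, hv⟩ : ∃ v, v = (1 / 2) - c := ⟨_, rfl⟩
    have hu0 : 0 ≤ u := by linarith
    have hv0 : 0 ≤ v := by linarith
    rw [← sub_nonneg]
    unfold edge0 edge1
    calc (0 : ℝ) ≤ 1843649854870556508160 * v ^ 29
        + 73409026810132727595008 * u * v ^ 28
        + 1316840143100860973449216 * u ^ 2 * v ^ 27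
        + 14499202500255155811778560 * u ^ 3 * v ^ 26
        + 111423650602308451530964992 * u ^ 4 * v ^ 25
        + 641006912206122913563148288 * u ^ 5 * v ^ 24
        + 2883342609344956980380303360 * u ^ 6 * v ^ 23
        + 10440259314892558343597981696 * u ^ 7 * v ^ 22
        + 31054560798963396418159509504 * u ^ 8 * v ^ 21
        + 76988084820332738087172964352 * u ^ 9 * v ^ 20
        + 160725732133881846463727665152 * u ^ 10 * v ^ 19
        + 284587991182891343496392736768 * u ^ 11 * v ^ 18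
        + 429342964704605121256983363584 * u ^ 12 * v ^ 17
        + 553170603492260722451513344000 * u ^ 13 * v ^ 16
        + 608790435774962860891696529408 * u ^ 14 * v ^ 15
        + 571173101176262058333867081728 * u ^ 15 * v ^ 14
        + 454808565704977469358760001536 * u ^ 16 * v ^ 13
        + 305077297038437444129591787520 * u ^ 17 * v ^ 12
        + 170419593072262826853030510592 * u ^ 18 * v ^ 11
        + 77916706432005029032495276032 * u ^ 19 * v ^ 10
        + 28397975049451676864716697600 * u ^ 20 * v ^ 9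
        + 7921152229061679122458654720 * u ^ 21 * v ^ 8
        + 1594853307721818572347187200 * u ^ 22 * v ^ 7
        + 230088227047599244790459392 * u ^ 23 * v ^ 6
        + 43744113283342419752267264 * u ^ 24 * v ^ 5
        + 19480443435300257069693696 * u ^ 25 * v ^ 4
        + 7277048527140299127271776 * u ^ 26 * v ^ 3
        + 1636766405232750959888208 * u ^ 27 * v ^ 2
        + 205238378416295889872840 * u ^ 28 * v
        + 11243991243405945659132 * u ^ 29 := by positivity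
      _ = _ := by rw [hu, hv]; ring
  · obtain ⟨u, hu⟩ : ∃ u, u = c - (1 / 2) := ⟨_, rfl⟩
    obtain ⟨v, hv⟩ : ∃ v, v = 1 - c := ⟨_, rfl⟩
    have hu0 : 0 ≤ u := by linarith
    have hv0 : 0 ≤ v := by linarith
    rw [← sub_nonneg]
    unfold edge0 edge1
    calc (0 : ℝ) ≤ 11243991243405945659132 * v ^ 29
        + 446913113701248958356816 * u * v ^ 28
        + 8403658993211436877439536 * u ^ 2 * v ^ 27
        + 99472261217231470726704000 * u ^ 3 * v ^ 26
        + 833103107790658213947920768 * u ^ 4 * v ^ 25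
        + 5263321850008658963327853056 * u ^ 5 * v ^ 24
        + 26113535660864105103239534080 * u ^ 6 * v ^ 23
        + 104569059968803225442953127936 * u ^ 7 * v ^ 22
        + 344625902407461458339636673536 * u ^ 8 * v ^ 21
        + 948232589397255658028877975552 * u ^ 9 * v ^ 20
        + 2201546026408132314288339578880 * u ^ 10 * v ^ 19
        + 4347491389283239505300453064704 * u ^ 11 * v ^ 18
        + 7345360495777773593795114696704 * u ^ 12 * v ^ 17
        + 10664578374261689215862630776832 * u ^ 13 * v ^ 16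
        + 13348693341840962637189992153088 * u ^ 14 * v ^ 15
        + 14441869566133060193840485367808 * u ^ 15 * v ^ 14
        + 13539269498722420057444282531840 * u ^ 16 * v ^ 13
        + 11035044460177306995880628322304 * u ^ 17 * v ^ 12
        + 7858761434219491343549274783744 * u ^ 18 * v ^ 11
        + 4928802172842019394212782407680 * u ^ 19 * v ^ 10
        + 2751520936858212003677791584256 * u ^ 20 * v ^ 9
        + 1382199433986860220844976635904 * u ^ 21 * v ^ 8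
        + 627698477531375902243422208000 * u ^ 22 * v ^ 7
        + 255298374103897495446145204224 * u ^ 23 * v ^ 6
        + 90520864754182088439858462720 * u ^ 24 * v ^ 5
        + 26817384627337463241948266496 * u ^ 25 * v ^ 4
        + 6276886381896577410700148736 * u ^ 26 * v ^ 3
        + 1075591179895840873474162688 * u ^ 27 * v ^ 2
        + 119085024287080269482033152 * u ^ 28 * v
        + 6366612129474149863129088 * u ^ 29 := by positivity
      _ = _ := by rw [hu, hv]; ring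

/-- A coefficient of the marginal terms. -/
theorem hb4_nonneg {s : ℝ} (h0 : 0 ≤ s) (h1 : s ≤ 2) :
    0 ≤ hb4 s := by
  rcases le_total s (1 / 2) with h | h
  · obtain ⟨u, hu⟩ : ∃ u, u = s - 0 := ⟨_, rfl⟩
    obtain ⟨v, hv⟩ : ∃ v, v = (1 / 2) - s := ⟨_, rfl⟩
    have hu0 : 0 ≤ u := by linarith
    have hv0 : 0 ≤ v := by linarith
    rw [← sub_nonneg]
    unfold hb4
    calc (0 : ℝ) ≤ 86925312 * v ^ 3
        + 169142016 * u * v ^ 2
        + 84475392 * u ^ 2 * v
        + 13348608 * u ^ 3 := by positivity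
      _ = _ := by rw [hu, hv]; ring
  · rcases le_total s (3 / 4) with h | h
    · obtain ⟨u, hu⟩ : ∃ u, u = s - (1 / 2) := ⟨_, rfl⟩
      obtain ⟨v, hv⟩ : ∃ v, v = (3 / 4) - s := ⟨_, rfl⟩
      have hu0 : 0 ≤ u := by linarith
      have hv0 : 0 ≤ v := by linarith
      rw [← sub_nonneg]
      unfold hb4
      calc (0 : ℝ) ≤ 106788864 * v ^ 3
          + 142648320 * u * v ^ 2
          + 45404160 * u ^ 2 * v
          + 20634624 * u ^ 3 := by positivity
        _ = _ := by rw [hu, hv]; ring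
    · rcases le_total s 1 with h | h
      · obtain ⟨u, hu⟩ : ∃ u, u = s - (3 / 4) := ⟨_, rfl⟩
        obtain ⟨v, hv⟩ : ∃ v, v = 1 - s := ⟨_, rfl⟩
        have hu0 : 0 ≤ u := by linarith
        have hv0 : 0 ≤ v := by linarith
        rw [← sub_nonneg]
        unfold hb4
        calc (0 : ℝ) ≤ 20634624 * v ^ 3
            + 78403584 * u * v ^ 2
            + 208647168 * u ^ 2 * v
            + 161968128 * u ^ 3 := by positivity
          _ = _ := by rw [hu, hv]; ring
      · obtain ⟨u, hu⟩ : ∃ u, u = s - 1 := ⟨_, rfl⟩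
        obtain ⟨v, hv⟩ : ∃ v, v = 2 - s := ⟨_, rfl⟩
        have hu0 : 0 ≤ u := by linarith
        have hv0 : 0 ≤ v := by linarith
        rw [← sub_nonneg]
        unfold hb4
        calc (0 : ℝ) ≤ 2530752 * v ^ 3
            + 24920832 * u * v ^ 2
            + 79002816 * u ^ 2 * v
            + 67702656 * u ^ 3 := by positivity
          _ = _ := by rw [hu, hv]; ring

/-- An end value of the bend of the marginal terms. -/
theorem bend_lo_zero {s : ℝ} (h0 : 0 ≤ s) (h1 : s ≤ 1) :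
    0 ≤ 194880 * s + 34944 * s ^ 2 + 4395216 * s ^ 3 + 9765888 * s ^ 4 - 4703675 * s ^ 5
    - 18935238 * s ^ 6 - 1614410 * s ^ 7 + (58748361 / 4) * s ^ 8
    + (24668785 / 4) * s ^ 9 - (118024485 / 32) * s ^ 10 - (221360751 / 64) * s ^ 11
    - (128571093 / 128) * s ^ 12 - (16171911 / 128) * s ^ 13 - (187359 / 32) * s ^ 14 := by
  obtain ⟨u, hu⟩ : ∃ u, u = s - 0 := ⟨_, rfl⟩
  obtain ⟨v, hv⟩ : ∃ v, v = 1 - s := ⟨_, rfl⟩
  have hu0 : 0 ≤ u := by linarith
  have hv0 : 0 ≤ v := by linarith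
  calc (0 : ℝ) ≤ 194880 * u * v ^ 13
      + 2568384 * u ^ 2 * v ^ 12
      + 20015184 * u ^ 3 * v ^ 11
      + 116155248 * u ^ 4 * v ^ 10
      + 481718965 * u ^ 5 * v ^ 9
      + 1371515127 * u ^ 6 * v ^ 8
      + 2661988954 * u ^ 7 * v ^ 7
      + (14104877857 / 4) * u ^ 8 * v ^ 6
      + (12709722103 / 4) * u ^ 9 * v ^ 5
      + (61782855995 / 32) * u ^ 10 * v ^ 4
      + (50288392137 / 64) * u ^ 11 * v ^ 3
      + (27360664121 / 128) * u ^ 12 * v ^ 2
      + (4548746949 / 128) * u ^ 13 * v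
      + (109325115 / 64) * u ^ 14 := by positivity
    _ = _ := by rw [hu, hv]; ring

/-- An end value of the bend of the marginal terms. -/
theorem bend_lo_one {s : ℝ} (h0 : 0 ≤ s) (h1 : s ≤ 1) :
    0 ≤ 194880 * s + 141312 * s ^ 2 + 2785088 * s ^ 3 + 7894656 * s ^ 4 + 3316101 * s ^ 5
    - 7684137 * s ^ 6 - (26325845 / 4) * s ^ 7 + (5758899 / 4) * s ^ 8
    + (40809849 / 16) * s ^ 9 + (10400757 / 64) * s ^ 10 - (28954395 / 64) * s ^ 11
    - (41295807 / 256) * s ^ 12 - (5381019 / 256) * s ^ 13 - (61731 / 64) * s ^ 14 := by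
  obtain ⟨u, hu⟩ : ∃ u, u = s - 0 := ⟨_, rfl⟩
  obtain ⟨v, hv⟩ : ∃ v, v = 1 - s := ⟨_, rfl⟩
  have hu0 : 0 ≤ u := by linarith
  have hv0 : 0 ≤ v := by linarith
  calc (0 : ℝ) ≤ 194880 * u * v ^ 13
      + 2674752 * u ^ 2 * v ^ 12
      + 19681472 * u ^ 3 * v ^ 11
      + 103592896 * u ^ 4 * v ^ 10
      + 405870341 * u ^ 5 * v ^ 9
      + 1157719812 * u ^ 6 * v ^ 8
      + (9456384091 / 4) * u ^ 7 * v ^ 7
      + 3428340928 * u ^ 8 * v ^ 6
      + (55990223421 / 16) * u ^ 9 * v ^ 5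
      + (158102073161 / 64) * u ^ 10 * v ^ 4
      + (74631072881 / 64) * u ^ 11 * v ^ 3
      + (88457793173 / 256) * u ^ 12 * v ^ 2
      + (14452195715 / 256) * u ^ 13 * v
      + (458698569 / 128) * u ^ 14 := by positivity
    _ = _ := by rw [hu, hv]; ring

/-- An end value of the bend of the marginal terms. -/
theorem bend_hi_zero {s : ℝ} (h0 : 1 ≤ s) (h1 : s ≤ 2) :
    0 ≤ 5285888 - 12145696 * s - 70823104 * s ^ 2 + 120375368 * s ^ 3 + 245748048 * s ^ 4
    - 519739832 * s ^ 5 + 31091644 * s ^ 6 + 353788943 * s ^ 7 - 82781069 * s ^ 8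
    - (793832141 / 8) * s ^ 9 + 18039297 * s ^ 10 + (397026537 / 32) * s ^ 11
    - (317061 / 4) * s ^ 12 - (13975587 / 64) * s ^ 13 - (187359 / 16) * s ^ 14 := by
  obtain ⟨u, hu⟩ : ∃ u, u = s - 1 := ⟨_, rfl⟩
  obtain ⟨v, hv⟩ : ∃ v, v = 2 - s := ⟨_, rfl⟩
  have hu0 : 0 ≤ u := by linarith
  have hv0 : 0 ≤ v := by linarith
  calc (0 : ℝ) ≤ (109325115 / 64) * v ^ 14
      + (2318194185 / 64) * u * v ^ 13
      + (5751764455 / 16) * u ^ 2 * v ^ 12
      + (69679299043 / 32) * u ^ 3 * v ^ 11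
      + (139996006151 / 16) * u ^ 4 * v ^ 10
      + 24212713993 * u ^ 5 * v ^ 9
      + (95787463361 / 2) * u ^ 6 * v ^ 8
      + 73213403226 * u ^ 7 * v ^ 7
      + 100274707728 * u ^ 8 * v ^ 6
      + 136437275296 * u ^ 9 * v ^ 5
      + 166214369920 * u ^ 10 * v ^ 4
      + 151716205824 * u ^ 11 * v ^ 3
      + 91191587840 * u ^ 12 * v ^ 2
      + 31707230208 * u ^ 13 * v
      + 4815175680 * u ^ 14 := by positivity
    _ = _ := by rw [hu, hv]; ring

/-- An end value of the bend of the marginal terms. -/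
theorem bend_hi_one {s : ℝ} (h0 : 1 ≤ s) (h1 : s ≤ 2) :
    0 ≤ -468544 * s - 22013728 * s ^ 2 + 42791352 * s ^ 3 + 83268128 * s ^ 4
    - 218040694 * s ^ 5 + 52317088 * s ^ 6 + 149446469 * s ^ 7 - 54294737 * s ^ 8
    - (91504173 / 2) * s ^ 9 + (73685397 / 8) * s ^ 10 + (210270159 / 32) * s ^ 11
    + (9040575 / 16) * s ^ 12 - (1841775 / 128) * s ^ 13 - (61731 / 32) * s ^ 14 := by
  rcases le_total s (3 / 2) with h | h
  · obtain ⟨u, hu⟩ : ∃ u, u = s - 1 := ⟨_, rfl⟩
    obtain ⟨v, hv⟩ : ∃ v, v = (3 / 2) - s := ⟨_, rfl⟩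
    have hu0 : 0 ≤ u := by linarith
    have hv0 : 0 ≤ v := by linarith
    calc (0 : ℝ) ≤ 58713416832 * v ^ 14
        + 917029097792 * u * v ^ 13
        + 6550781739136 * u ^ 2 * v ^ 12
        + 28243328648736 * u ^ 3 * v ^ 11
        + 81631907692504 * u ^ 4 * v ^ 10
        + 166084452426860 * u ^ 5 * v ^ 9
        + 243042889903012 * u ^ 6 * v ^ 8
        + 257159964475804 * u ^ 7 * v ^ 7
        + (392391409051871 / 2) * u ^ 8 * v ^ 6
        + (435848908144811 / 4) * u ^ 9 * v ^ 5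
        + 47979392770606 * u ^ 10 * v ^ 4
        + (166972783524081 / 8) * u ^ 11 * v ^ 3
        + (300951935552573 / 32) * u ^ 12 * v ^ 2
        + (197831257561109 / 64) * u ^ 13 * v
        + (29796799316781 / 64) * u ^ 14 := by positivity
      _ = _ := by rw [hu, hv]; ring
  · obtain ⟨u, hu⟩ : ∃ u, u = s - (3 / 2) := ⟨_, rfl⟩
    obtain ⟨v, hv⟩ : ∃ v, v = 2 - s := ⟨_, rfl⟩
    have hu0 : 0 ≤ u := by linarith
    have hv0 : 0 ≤ v := by linarith
    calc (0 : ℝ) ≤ (29796799316781 / 64) * v ^ 14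
        + (636479123308759 / 64) * u * v ^ 13
        + (1576081531456149 / 16) * u ^ 2 * v ^ 12
        + (2384677368108195 / 4) * u ^ 3 * v ^ 11
        + 2455839277602909 * u ^ 4 * v ^ 10
        + 7275489363904752 * u ^ 5 * v ^ 9
        + 15981635192091520 * u ^ 6 * v ^ 8
        + 26450316041773824 * u ^ 7 * v ^ 7
        + 33160615827154944 * u ^ 8 * v ^ 6
        + 31357190293766144 * u ^ 9 * v ^ 5
        + 22029211609464832 * u ^ 10 * v ^ 4
        + 11155759014346752 * u ^ 11 * v ^ 3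
        + 3851693125009408 * u ^ 12 * v ^ 2
        + 811988498251776 * u ^ 13 * v
        + 78891838341120 * u ^ 14 := by positivity
      _ = _ := by rw [hu, hv]; ring

/-- The weight is positive at unit cosine. -/
theorem num_one {x : ℝ} (h0 : 0 ≤ x) :
    x ≤ pA0 x + pA2 x + pA4 x := by
  rcases le_total x (1 / 2) with h | h
  · obtain ⟨u, hu⟩ : ∃ u, u = x - 0 := ⟨_, rfl⟩
    obtain ⟨v, hv⟩ : ∃ v, v = (1 / 2) - x := ⟨_, rfl⟩
    have hu0 : 0 ≤ u := by linarith
    have hv0 : 0 ≤ v := by linarith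
    rw [← sub_nonneg]
    unfold pA0 pA2 pA4
    calc (0 : ℝ) ≤ 6464384 * u * v ^ 7
        + 40015232 * u ^ 2 * v ^ 6
        + 104214592 * u ^ 3 * v ^ 5
        + 147715056 * u ^ 4 * v ^ 4
        + 122750256 * u ^ 5 * v ^ 3
        + 59620736 * u ^ 6 * v ^ 2
        + 15621376 * u ^ 7 * v
        + 1699737 * u ^ 8 := by positivity
      _ = _ := by rw [hu, hv]; ring
  · rcases le_total x (3 / 4) with h | h
    · obtain ⟨u, hu⟩ : ∃ u, u = x - (1 / 2) := ⟨_, rfl⟩
      obtain ⟨v, hv⟩ : ∃ v, v = (3 / 4) - x := ⟨_, rfl⟩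
      have hu0 : 0 ≤ u := by linarith
      have hv0 : 0 ≤ v := by linarith
      rw [← sub_nonneg]
      unfold pA0 pA2 pA4
      calc (0 : ℝ) ≤ 435132672 * v ^ 8
          + 3222055936 * u * v ^ 7
          + 10233956096 * u ^ 2 * v ^ 6
          + 18175528704 * u ^ 3 * v ^ 5
          + 19689104736 * u ^ 4 * v ^ 4
          + 13275684928 * u ^ 5 * v ^ 3
          + 5417887856 * u ^ 6 * v ^ 2
          + 1217910608 * u ^ 7 * v
          + 115098969 * u ^ 8 := by positivity
        _ = _ := by rw [hu, hv]; ring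
    · rcases le_total x (7 / 8) with h | h
      · obtain ⟨u, hu⟩ : ∃ u, u = x - (3 / 4) := ⟨_, rfl⟩
        obtain ⟨v, hv⟩ : ∃ v, v = (7 / 8) - x := ⟨_, rfl⟩
        have hu0 : 0 ≤ u := by linarith
        have hv0 : 0 ≤ v := by linarith
        rw [← sub_nonneg]
        unfold pA0 pA2 pA4
        calc (0 : ℝ) ≤ 29465336064 * v ^ 8
            + 197691474944 * u * v ^ 7
            + 566189137664 * u ^ 2 * v ^ 6
            + 898906646272 * u ^ 3 * v ^ 5
            + 858469136736 * u ^ 4 * v ^ 4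
            + 499453786560 * u ^ 5 * v ^ 3
            + 170267962352 * u ^ 6 * v ^ 2
            + 30535088656 * u ^ 7 * v
            + 2195423769 * u ^ 8 := by positivity
          _ = _ := by rw [hu, hv]; ring
      · rcases le_total x (29 / 32) with h | h
        · obtain ⟨u, hu⟩ : ∃ u, u = x - (7 / 8) := ⟨_, rfl⟩
          obtain ⟨v, hv⟩ : ∃ v, v = (29 / 32) - x := ⟨_, rfl⟩
          have hu0 : 0 ≤ u := by linarith
          have hv0 : 0 ≤ v := by linarith
          rw [← sub_nonneg]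
          unfold pA0 pA2 pA4
          calc (0 : ℝ) ≤ 143879292125184 * v ^ 8
              + 938506028711936 * u * v ^ 7
              + 2614626294546432 * u ^ 2 * v ^ 6
              + 4040325040742400 * u ^ 3 * v ^ 5
              + 3758435168892416 * u ^ 4 * v ^ 4
              + 2132545955420672 * u ^ 5 * v ^ 3
              + 710889275063744 * u ^ 6 * v ^ 2
              + 125506059097184 * u ^ 7 * v
              + 9053053344569 * u ^ 8 := by positivity
            _ = _ := by rw [hu, hv]; ring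
        · rcases le_total x (59 / 64) with h | h
          · obtain ⟨u, hu⟩ : ∃ u, u = x - (29 / 32) := ⟨_, rfl⟩
            obtain ⟨v, hv⟩ : ∃ v, v = (59 / 64) - x := ⟨_, rfl⟩
            have hu0 : 0 ≤ u := by linarith
            have hv0 : 0 ≤ v := by linarith
            rw [← sub_nonneg]
            unfold pA0 pA2 pA4
            calc (0 : ℝ) ≤ 2317581656209664 * v ^ 8
                + 11746204310076416 * u * v ^ 7
                + 22824414518673152 * u ^ 2 * v ^ 6
                + 20193039467112704 * u ^ 3 * v ^ 5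
                + 7486153408882016 * u ^ 4 * v ^ 4
                + 3169935239249472 * u ^ 5 * v ^ 3
                + 5935066333341168 * u ^ 6 * v ^ 2
                + 4603453440237296 * u ^ 7 * v
                + 1149416539570041 * u ^ 8 := by positivity
              _ = _ := by rw [hu, hv]; ring
          · rcases le_total x (15 / 16) with h | h
            · obtain ⟨u, hu⟩ : ∃ u, u = x - (59 / 64) := ⟨_, rfl⟩
              obtain ⟨v, hv⟩ : ∃ v, v = (15 / 16) - x := ⟨_, rfl⟩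
              have hu0 : 0 ≤ u := by linarith
              have hv0 : 0 ≤ v := by linarith
              rw [← sub_nonneg]
              unfold pA0 pA2 pA4
              calc (0 : ℝ) ≤ 1149416539570041 * v ^ 8
                  + 13787211192883360 * u * v ^ 7
                  + 70221370601863616 * u ^ 2 * v ^ 6
                  + 196299381508290048 * u ^ 3 * v ^ 5
                  + 330270342068860416 * u ^ 4 * v ^ 4
                  + 344329903945179136 * u ^ 5 * v ^ 3
                  + 218388687461138432 * u ^ 6 * v ^ 2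
                  + 77385201398448128 * u ^ 7 * v
                  + 11771881373368320 * u ^ 8 := by positivity
                _ = _ := by rw [hu, hv]; ring
            · rcases le_total x 1 with h | h
              · obtain ⟨u, hu⟩ : ∃ u, u = x - (15 / 16) := ⟨_, rfl⟩
                obtain ⟨v, hv⟩ : ∃ v, v = 1 - x := ⟨_, rfl⟩
                have hu0 : 0 ≤ u := by linarith
                have hv0 : 0 ≤ v := by linarith
                rw [← sub_nonneg]
                unfold pA0 pA2 pA4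
                calc (0 : ℝ) ≤ 179624654745 * v ^ 8
                    + 2461768331008 * u * v ^ 7
                    + 13742183913472 * u ^ 2 * v ^ 6
                    + 40950055018496 * u ^ 3 * v ^ 5
                    + 72208734683136 * u ^ 4 * v ^ 4
                    + 78075226226688 * u ^ 5 * v ^ 3
                    + 51008709328896 * u ^ 6 * v ^ 2
                    + 18534126059520 * u ^ 7 * v
                    + 2881923055616 * u ^ 8 := by positivity
                  _ = _ := by rw [hu, hv]; ring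
              · rcases le_total x 2 with h | h
                · obtain ⟨u, hu⟩ : ∃ u, u = x - 1 := ⟨_, rfl⟩
                  obtain ⟨v, hv⟩ : ∃ v, v = 2 - x := ⟨_, rfl⟩
                  have hu0 : 0 ≤ u := by linarith
                  have hv0 : 0 ≤ v := by linarith
                  rw [← sub_nonneg]
                  unfold pA0 pA2 pA4
                  calc (0 : ℝ) ≤ 671 * v ^ 8
                      + 22211 * u * v ^ 7
                      + 253733 * u ^ 2 * v ^ 6
                      + 1234757 * u ^ 3 * v ^ 5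
                      + 3150776 * u ^ 4 * v ^ 4
                      + 4611639 * u ^ 5 * v ^ 3
                      + 3930927 * u ^ 6 * v ^ 2
                      + 1831121 * u ^ 7 * v
                      + 363774 * u ^ 8 := by positivity
                    _ = _ := by rw [hu, hv]; ring
                · rcases le_total x 4 with h | h
                  · obtain ⟨u, hu⟩ : ∃ u, u = x - 2 := ⟨_, rfl⟩
                    obtain ⟨v, hv⟩ : ∃ v, v = 4 - x := ⟨_, rfl⟩
                    have hu0 : 0 ≤ u := by linarith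
                    have hv0 : 0 ≤ v := by linarith
                    rw [← sub_nonneg]
                    unfold pA0 pA2 pA4
                    calc (0 : ℝ) ≤ (181887 / 128) * v ^ 8
                        + (2534167 / 128) * u * v ^ 7
                        + (15243837 / 128) * u ^ 2 * v ^ 6
                        + (51998091 / 128) * u ^ 3 * v ^ 5
                        + (110748103 / 128) * u ^ 4 * v ^ 4
                        + (151819765 / 128) * u ^ 5 * v ^ 3
                        + (131499151 / 128) * u ^ 6 * v ^ 2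
                        + (65963113 / 128) * u ^ 7 * v
                        + (7330871 / 64) * u ^ 8 := by positivity
                      _ = _ := by rw [hu, hv]; ring
                  · obtain ⟨u, hu⟩ : ∃ u, u = x - 4 := ⟨_, rfl⟩
                    have hu0 : 0 ≤ u := by linarith
                    rw [← sub_nonneg]
                    unfold pA0 pA2 pA4
                    calc (0 : ℝ) ≤ 29323484
                        + 51330823 * u
                        + 40143068 * u ^ 2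
                        + 18251830 * u ^ 3
                        + 5218691 * u ^ 4
                        + 945518 * u ^ 5
                        + 104100 * u ^ 6
                        + 6248 * u ^ 7
                        + 153 * u ^ 8 := by positivity
                      _ = _ := by rw [hu]; ring

/-- The weight decreases in the squared cosine. -/
theorem neg_pA2 {x : ℝ} (h0 : 0 ≤ x) :
    0 ≤ -pA2 x := by
  rcases le_total x 2 with h | h
  · obtain ⟨u, hu⟩ : ∃ u, u = x - 0 := ⟨_, rfl⟩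
    obtain ⟨v, hv⟩ : ∃ v, v = 2 - x := ⟨_, rfl⟩
    have hu0 : 0 ≤ u := by linarith
    have hv0 : 0 ≤ v := by linarith
    skip
    unfold pA2
    calc (0 : ℝ) ≤ (637 / 4) * v ^ 6
        + 443 * u * v ^ 5
        + (9619 / 2) * u ^ 2 * v ^ 4
        + (75443 / 4) * u ^ 3 * v ^ 3
        + (99239 / 4) * u ^ 4 * v ^ 2
        + (53305 / 4) * u ^ 5 * v
        + (7231 / 2) * u ^ 6 := by positivity
      _ = _ := by rw [hu, hv]; ring
  · rcases le_total x 4 with h | h
    · obtain ⟨u, hu⟩ : ∃ u, u = x - 2 := ⟨_, rfl⟩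
      obtain ⟨v, hv⟩ : ∃ v, v = 4 - x := ⟨_, rfl⟩
      have hu0 : 0 ≤ u := by linarith
      have hv0 : 0 ≤ v := by linarith
      skip
      unfold pA2
      calc (0 : ℝ) ≤ (7231 / 2) * v ^ 6
          + (120239 / 4) * u * v ^ 5
          + (433909 / 4) * u ^ 2 * v ^ 4
          + (900189 / 4) * u ^ 3 * v ^ 3
          + 288699 * u ^ 4 * v ^ 2
          + 214454 * u ^ 5 * v
          + (278133 / 4) * u ^ 6 := by positivity
        _ = _ := by rw [hu, hv]; ring
    · obtain ⟨u, hu⟩ : ∃ u, u = x - 4 := ⟨_, rfl⟩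
      have hu0 : 0 ≤ u := by linarith
      skip
      unfold pA2
      calc (0 : ℝ) ≤ 4450128
          + 6487856 * u
          + 4150844 * u ^ 2
          + 1406990 * u ^ 3
          + 255953 * u ^ 4
          + 22957 * u ^ 5
          + 764 * u ^ 6 := by positivity
        _ = _ := by rw [hu]; ring

/-- The weight decreases in the squared cosine. -/
theorem neg_pA24 {x : ℝ} (h0 : 0 ≤ x) :
    2 * pA4 x ≤ -pA2 x := by
  rcases le_total x (1 / 4) with h | h
  · obtain ⟨u, hu⟩ : ∃ u, u = x - 0 := ⟨_, rfl⟩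
    obtain ⟨v, hv⟩ : ∃ v, v = (1 / 4) - x := ⟨_, rfl⟩
    have hu0 : 0 ≤ u := by linarith
    have hv0 : 0 ≤ v := by linarith
    rw [← sub_nonneg]
    unfold pA2 pA4
    calc (0 : ℝ) ≤ 40828928 * v ^ 6
        + 178978816 * u * v ^ 5
        + 309050368 * u ^ 2 * v ^ 4
        + 263436160 * u ^ 3 * v ^ 3
        + 113043280 * u ^ 4 * v ^ 2
        + 22077524 * u ^ 5 * v
        + 1570688 * u ^ 6 := by positivity
      _ = _ := by rw [hu, hv]; ring
  · rcases le_total x (5 / 16) with h | h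
    · obtain ⟨u, hu⟩ : ∃ u, u = x - (1 / 4) := ⟨_, rfl⟩
      obtain ⟨v, hv⟩ : ∃ v, v = (5 / 16) - x := ⟨_, rfl⟩
      have hu0 : 0 ≤ u := by linarith
      have hv0 : 0 ≤ v := by linarith
      rw [← sub_nonneg]
      unfold pA2 pA4
      calc (0 : ℝ) ≤ 6433538048 * v ^ 6
          + 25644150784 * u * v ^ 5
          + 38428974080 * u ^ 2 * v ^ 4
          + 25905180160 * u ^ 3 * v ^ 3
          + 7076719488 * u ^ 4 * v ^ 2
          + 534361456 * u ^ 5 * v
          + 144461548 * u ^ 6 := by positivity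
        _ = _ := by rw [hu, hv]; ring
    · rcases le_total x (3 / 8) with h | h
      · obtain ⟨u, hu⟩ : ∃ u, u = x - (5 / 16) := ⟨_, rfl⟩
        obtain ⟨v, hv⟩ : ∃ v, v = (3 / 8) - x := ⟨_, rfl⟩
        have hu0 : 0 ≤ u := by linarith
        have hv0 : 0 ≤ v := by linarith
        rw [← sub_nonneg]
        unfold pA2 pA4
        calc (0 : ℝ) ≤ 144461548 * v ^ 6
            + 1199177120 * u * v ^ 5
            + 10400797808 * u ^ 2 * v ^ 4
            + 32447965184 * u ^ 3 * v ^ 3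
            + 44761015872 * u ^ 4 * v ^ 2
            + 28652307968 * u ^ 5 * v
            + 6993175808 * u ^ 6 := by positivity
          _ = _ := by rw [hu, hv]; ring
      · rcases le_total x (1 / 2) with h | h
        · obtain ⟨u, hu⟩ : ∃ u, u = x - (3 / 8) := ⟨_, rfl⟩
          obtain ⟨v, hv⟩ : ∃ v, v = (1 / 2) - x := ⟨_, rfl⟩
          have hu0 : 0 ≤ u := by linarith
          have hv0 : 0 ≤ v := by linarith
          rw [← sub_nonneg]
          unfold pA2 pA4
          calc (0 : ℝ) ≤ 109268372 * v ^ 6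
              + 1071446072 * u * v ^ 5
              + 4118024352 * u ^ 2 * v ^ 4
              + 7935070976 * u ^ 3 * v ^ 3
              + 8171890688 * u ^ 4 * v ^ 2
              + 4309096448 * u ^ 5 * v
              + 916430848 * u ^ 6 := by positivity
            _ = _ := by rw [hu, hv]; ring
        · rcases le_total x 1 with h | h
          · obtain ⟨u, hu⟩ : ∃ u, u = x - (1 / 2) := ⟨_, rfl⟩
            obtain ⟨v, hv⟩ : ∃ v, v = 1 - x := ⟨_, rfl⟩
            have hu0 : 0 ≤ u := by linarith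
            have hv0 : 0 ≤ v := by linarith
            rw [← sub_nonneg]
            unfold pA2 pA4
            calc (0 : ℝ) ≤ 223738 * v ^ 6
                + 2504038 * u * v ^ 5
                + 10620648 * u ^ 2 * v ^ 4
                + 21762976 * u ^ 3 * v ^ 3
                + 23227712 * u ^ 4 * v ^ 2
                + 12485152 * u ^ 5 * v
                + 2680832 * u ^ 6 := by positivity
              _ = _ := by rw [hu, hv]; ring
          · rcases le_total x 2 with h | h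
            · obtain ⟨u, hu⟩ : ∃ u, u = x - 1 := ⟨_, rfl⟩
              obtain ⟨v, hv⟩ : ∃ v, v = 2 - x := ⟨_, rfl⟩
              have hu0 : 0 ≤ u := by linarith
              have hv0 : 0 ≤ v := by linarith
              rw [← sub_nonneg]
              unfold pA2 pA4
              calc (0 : ℝ) ≤ 41888 * v ^ 6
                  + 363823 * u * v ^ 5
                  + 1254197 * u ^ 2 * v ^ 4
                  + 2205442 * u ^ 3 * v ^ 3
                  + 2115792 * u ^ 4 * v ^ 2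
                  + 1073464 * u ^ 5 * v
                  + 231616 * u ^ 6 := by positivity
                _ = _ := by rw [hu, hv]; ring
            · rcases le_total x 4 with h | h
              · obtain ⟨u, hu⟩ : ∃ u, u = x - 2 := ⟨_, rfl⟩
                obtain ⟨v, hv⟩ : ∃ v, v = 4 - x := ⟨_, rfl⟩
                have hu0 : 0 ≤ u := by linarith
                have hv0 : 0 ≤ v := by linarith
                rw [← sub_nonneg]
                unfold pA2 pA4
                calc (0 : ℝ) ≤ 3619 * v ^ 6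
                    + (126385 / 4) * u * v ^ 5
                    + (470463 / 4) * u ^ 2 * v ^ 4
                    + (985225 / 4) * u ^ 3 * v ^ 3
                    + (625915 / 2) * u ^ 4 * v ^ 2
                    + (456173 / 2) * u ^ 5 * v
                    + (290243 / 4) * u ^ 6 := by positivity
                  _ = _ := by rw [hu, hv]; ring
              · obtain ⟨u, hu⟩ : ∃ u, u = x - 4 := ⟨_, rfl⟩
                have hu0 : 0 ≤ u := by linarith
                rw [← sub_nonneg]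
                unfold pA2 pA4
                calc (0 : ℝ) ≤ 4643888
                    + 6632896 * u
                    + 4174980 * u ^ 2
                    + 1406990 * u ^ 3
                    + 255953 * u ^ 4
                    + 22957 * u ^ 5
                    + 764 * u ^ 6 := by positivity
                  _ = _ := by rw [hu]; ring

/-- For a small distance. -/
theorem pA24_small {x : ℝ} (h0 : 0 ≤ x) (h1 : x ≤ (1 / 16)) :
    4 * pA4 x ≤ -pA2 x := by
  obtain ⟨u, hu⟩ : ∃ u, u = x - 0 := ⟨_, rfl⟩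
  obtain ⟨v, hv⟩ : ∃ v, v = (1 / 16) - x := ⟨_, rfl⟩
  have hu0 : 0 ≤ u := by linarith
  have hv0 : 0 ≤ v := by linarith
  rw [← sub_nonneg]
  unfold pA2 pA4
  calc (0 : ℝ) ≤ 163477192704 * v ^ 6
      + 862902550528 * u * v ^ 5
      + 1870743732224 * u ^ 2 * v ^ 4
      + 2123521712128 * u ^ 3 * v ^ 3
      + 1322965282048 * u ^ 4 * v ^ 2
      + 424690834128 * u ^ 5 * v
      + 53928890572 * u ^ 6 := by positivity
    _ = _ := by rw [hu, hv]; ring

/-- A Bernstein coefficient of the gain of the regularisation. -/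
theorem gainFull_00 {x : ℝ} (h0 : 0 ≤ x) :
    0 ≤ 141120 + 211680 * x + 180600 * x ^ 2 + 94324 * x ^ 3 + 130728 * x ^ 4
    + 104580 * x ^ 5 + 7788 * x ^ 6 - 4608 * x ^ 7 + 2398 * x ^ 8 + 153 * x ^ 9 := by
  rcases le_total x 4 with h | h
  · obtain ⟨u, hu⟩ : ∃ u, u = x - 0 := ⟨_, rfl⟩
    obtain ⟨v, hv⟩ : ∃ v, v = 4 - x := ⟨_, rfl⟩
    have hu0 : 0 ≤ u := by linarith
    have hv0 : 0 ≤ v := by linarith
    calc (0 : ℝ) ≤ (2205 / 4096) * v ^ 9
        + (33075 / 4096) * u * v ^ 8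
        + (115185 / 2048) * u ^ 2 * v ^ 7
        + (483017 / 2048) * u ^ 3 * v ^ 6
        + (763929 / 1024) * u ^ 4 * v ^ 5
        + (265215 / 128) * u ^ 5 * v ^ 4
        + (8406751 / 2048) * u ^ 6 * v ^ 3
        + (9198639 / 2048) * u ^ 7 * v ^ 2
        + (11906911 / 4096) * u ^ 8 * v
        + (4752125 / 4096) * u ^ 9 := by positivity
      _ = _ := by rw [hu, hv]; ring
  · obtain ⟨u, hu⟩ : ∃ u, u = x - 4 := ⟨_, rfl⟩
    have hu0 : 0 ≤ u := by linarith
    calc (0 : ℝ) ≤ 304136000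
        + 493795424 * u
        + 376873960 * u ^ 2
        + 177752436 * u ^ 3
        + 56482360 * u ^ 4
        + 12272804 * u ^ 5
        + 1775596 * u ^ 6
        + 160256 * u ^ 7
        + 7906 * u ^ 8
        + 153 * u ^ 9 := by positivity
      _ = _ := by rw [hu]; ring

/-- A Bernstein coefficient of the gain of the regularisation. -/
theorem gainFull_01 {x : ℝ} (h0 : 0 ≤ x) :
    0 ≤ 141120 + 211680 * x + 180600 * x ^ 2 + 94324 * x ^ 3 + 130728 * x ^ 4
    + 104580 * x ^ 5 + 7788 * x ^ 6 - 4608 * x ^ 7 + 2398 * x ^ 8 + 153 * x ^ 9 := by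
  rcases le_total x 4 with h | h
  · obtain ⟨u, hu⟩ : ∃ u, u = x - 0 := ⟨_, rfl⟩
    obtain ⟨v, hv⟩ : ∃ v, v = 4 - x := ⟨_, rfl⟩
    have hu0 : 0 ≤ u := by linarith
    have hv0 : 0 ≤ v := by linarith
    calc (0 : ℝ) ≤ (2205 / 4096) * v ^ 9
        + (33075 / 4096) * u * v ^ 8
        + (115185 / 2048) * u ^ 2 * v ^ 7
        + (483017 / 2048) * u ^ 3 * v ^ 6
        + (763929 / 1024) * u ^ 4 * v ^ 5
        + (265215 / 128) * u ^ 5 * v ^ 4
        + (8406751 / 2048) * u ^ 6 * v ^ 3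
        + (9198639 / 2048) * u ^ 7 * v ^ 2
        + (11906911 / 4096) * u ^ 8 * v
        + (4752125 / 4096) * u ^ 9 := by positivity
      _ = _ := by rw [hu, hv]; ring
  · obtain ⟨u, hu⟩ : ∃ u, u = x - 4 := ⟨_, rfl⟩
    have hu0 : 0 ≤ u := by linarith
    calc (0 : ℝ) ≤ 304136000
        + 493795424 * u
        + 376873960 * u ^ 2
        + 177752436 * u ^ 3
        + 56482360 * u ^ 4
        + 12272804 * u ^ 5
        + 1775596 * u ^ 6
        + 160256 * u ^ 7
        + 7906 * u ^ 8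
        + 153 * u ^ 9 := by positivity
      _ = _ := by rw [hu]; ring

/-- A Bernstein coefficient of the gain of the regularisation. -/
theorem gainFull_02 {x : ℝ} (h0 : 0 ≤ x) :
    0 ≤ 141120 + 211680 * x + 180600 * x ^ 2 + 94324 * x ^ 3 + 130728 * x ^ 4
    + 104580 * x ^ 5 + 7788 * x ^ 6 - 4608 * x ^ 7 + 2398 * x ^ 8 + 153 * x ^ 9 := by
  rcases le_total x 4 with h | h
  · obtain ⟨u, hu⟩ : ∃ u, u = x - 0 := ⟨_, rfl⟩
    obtain ⟨v, hv⟩ : ∃ v, v = 4 - x := ⟨_, rfl⟩
    have hu0 : 0 ≤ u := by linarith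
    have hv0 : 0 ≤ v := by linarith
    calc (0 : ℝ) ≤ (2205 / 4096) * v ^ 9
        + (33075 / 4096) * u * v ^ 8
        + (115185 / 2048) * u ^ 2 * v ^ 7
        + (483017 / 2048) * u ^ 3 * v ^ 6
        + (763929 / 1024) * u ^ 4 * v ^ 5
        + (265215 / 128) * u ^ 5 * v ^ 4
        + (8406751 / 2048) * u ^ 6 * v ^ 3
        + (9198639 / 2048) * u ^ 7 * v ^ 2
        + (11906911 / 4096) * u ^ 8 * v
        + (4752125 / 4096) * u ^ 9 := by positivity
      _ = _ := by rw [hu, hv]; ring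
  · obtain ⟨u, hu⟩ : ∃ u, u = x - 4 := ⟨_, rfl⟩
    have hu0 : 0 ≤ u := by linarith
    calc (0 : ℝ) ≤ 304136000
        + 493795424 * u
        + 376873960 * u ^ 2
        + 177752436 * u ^ 3
        + 56482360 * u ^ 4
        + 12272804 * u ^ 5
        + 1775596 * u ^ 6
        + 160256 * u ^ 7
        + 7906 * u ^ 8
        + 153 * u ^ 9 := by positivity
      _ = _ := by rw [hu]; ring

/-- A Bernstein coefficient of the gain of the regularisation. -/
theorem gainFull_10 {x : ℝ} (h0 : 0 ≤ x) :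
    0 ≤ 171696 + 151176 * x + 562860 * x ^ 2 + 255574 * x ^ 3 + 5823 * x ^ 4
    + (183961 / 2) * x ^ 5 + 28527 * x ^ 6 - 1934 * x ^ 7 + 2398 * x ^ 8 + 153 * x ^ 9 := by
  rcases le_total x 4 with h | h
  · obtain ⟨u, hu⟩ : ∃ u, u = x - 0 := ⟨_, rfl⟩
    obtain ⟨v, hv⟩ : ∃ v, v = 4 - x := ⟨_, rfl⟩
    have hu0 : 0 ≤ u := by linarith
    have hv0 : 0 ≤ v := by linarith
    calc (0 : ℝ) ≤ (10731 / 16384) * v ^ 9
        + (134373 / 16384) * u * v ^ 8
        + (156441 / 2048) * u ^ 2 * v ^ 7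
        + (216311 / 512) * u ^ 3 * v ^ 6
        + (10757787 / 8192) * u ^ 4 * v ^ 5
        + (22692409 / 8192) * u ^ 5 * v ^ 4
        + (4684093 / 1024) * u ^ 6 * v ^ 3
        + (10597445 / 2048) * u ^ 7 * v ^ 2
        + (62255687 / 16384) * u ^ 8 * v
        + (25265057 / 16384) * u ^ 9 := by positivity
      _ = _ := by rw [hu, hv]; ring
  · obtain ⟨u, hu⟩ : ∃ u, u = x - 4 := ⟨_, rfl⟩
    have hu0 : 0 ≤ u := by linarith
    calc (0 : ℝ) ≤ 404240912
        + 660519304 * u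
        + 496276116 * u ^ 2
        + 224404246 * u ^ 3
        + 67072585 * u ^ 4
        + (27312809 / 2) * u ^ 5
        + 1871207 * u ^ 6
        + 162930 * u ^ 7
        + 7906 * u ^ 8
        + 153 * u ^ 9 := by positivity
      _ = _ := by rw [hu]; ring

/-- A Bernstein coefficient of the gain of the regularisation. -/
theorem gainFull_11 {x : ℝ} (h0 : 0 ≤ x) :
    0 ≤ 125832 + 188748 * x + 324798 * x ^ 2 + 55351 * x ^ 3 + (83013 / 2) * x ^ 4
    + (469743 / 4) * x ^ 5 + (40899 / 2) * x ^ 6 - 2889 * x ^ 7 + 2398 * x ^ 8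
    + 153 * x ^ 9 := by
  rcases le_total x 4 with h | h
  · obtain ⟨u, hu⟩ : ∃ u, u = x - 0 := ⟨_, rfl⟩
    obtain ⟨v, hv⟩ : ∃ v, v = 4 - x := ⟨_, rfl⟩
    have hu0 : 0 ≤ u := by linarith
    have hv0 : 0 ≤ v := by linarith
    calc (0 : ℝ) ≤ (15729 / 32768) * v ^ 9
        + (235935 / 32768) * u * v ^ 8
        + (123177 / 2048) * u ^ 2 * v ^ 7
        + (1119211 / 4096) * u ^ 3 * v ^ 6
        + (12446685 / 16384) * u ^ 4 * v ^ 5
        + (29819415 / 16384) * u ^ 5 * v ^ 4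
        + (15259691 / 4096) * u ^ 6 * v ^ 3
        + (4764339 / 1024) * u ^ 7 * v ^ 2
        + (114090221 / 32768) * u ^ 8 * v
        + (46773883 / 32768) * u ^ 9 := by positivity
      _ = _ := by rw [hu, hv]; ring
  · obtain ⟨u, hu⟩ : ∃ u, u = x - 4 := ⟨_, rfl⟩
    have hu0 : 0 ≤ u := by linarith
    calc (0 : ℝ) ≤ 374191064
        + 613749452 * u
        + 461798434 * u ^ 2
        + 209951799 * u ^ 3
        + (127079147 / 2) * u ^ 4
        + (52668479 / 4) * u ^ 5
        + (3672779 / 2) * u ^ 6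
        + 161975 * u ^ 7
        + 7906 * u ^ 8
        + 153 * u ^ 9 := by positivity
      _ = _ := by rw [hu]; ring

/-- A Bernstein coefficient of the gain of the regularisation. -/
theorem gainFull_12 {x : ℝ} (h0 : 0 ≤ x) :
    0 ≤ 79968 + 226320 * x + 86736 * x ^ 2 - 144872 * x ^ 3 + 77190 * x ^ 4 + 142891 * x ^ 5
    + 12372 * x ^ 6 - 3844 * x ^ 7 + 2398 * x ^ 8 + 153 * x ^ 9 := by
  rcases le_total x 4 with h | h
  · obtain ⟨u, hu⟩ : ∃ u, u = x - 0 := ⟨_, rfl⟩
    obtain ⟨v, hv⟩ : ∃ v, v = 4 - x := ⟨_, rfl⟩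
    have hu0 : 0 ≤ u := by linarith
    have hv0 : 0 ≤ v := by linarith
    calc (0 : ℝ) ≤ (2499 / 8192) * v ^ 9
        + (50781 / 8192) * u * v ^ 8
        + (89913 / 2048) * u ^ 2 * v ^ 7
        + (253967 / 2048) * u ^ 3 * v ^ 6
        + (844449 / 4096) * u ^ 4 * v ^ 5
        + (3563503 / 4096) * u ^ 5 * v ^ 4
        + (5891505 / 2048) * u ^ 6 * v ^ 3
        + (8459911 / 2048) * u ^ 7 * v ^ 2
        + (25917267 / 8192) * u ^ 8 * v
        + (10754413 / 8192) * u ^ 9 := by positivity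
      _ = _ := by rw [hu, hv]; ring
  · obtain ⟨u, hu⟩ : ∃ u, u = x - 4 := ⟨_, rfl⟩
    have hu0 : 0 ≤ u := by linarith
    calc (0 : ℝ) ≤ 344141216
        + 566979600 * u
        + 427320752 * u ^ 2
        + 195499352 * u ^ 3
        + 60006562 * u ^ 4
        + 12677835 * u ^ 5
        + 1801572 * u ^ 6
        + 161020 * u ^ 7
        + 7906 * u ^ 8
        + 153 * u ^ 9 := by positivity
      _ = _ := by rw [hu]; ring

/-- A Bernstein coefficient of the gain of the regularisation. -/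
theorem gainFull_20 {x : ℝ} (h0 : 0 ≤ x) :
    0 ≤ 201600 - 101632 * x + 1017752 * x ^ 2 + 453028 * x ^ 3 - 119082 * x ^ 4
    + 79381 * x ^ 5 + 49266 * x ^ 6 + 740 * x ^ 7 + 2398 * x ^ 8 + 153 * x ^ 9 := by
  rcases le_total x 4 with h | h
  · obtain ⟨u, hu⟩ : ∃ u, u = x - 0 := ⟨_, rfl⟩
    obtain ⟨v, hv⟩ : ∃ v, v = 4 - x := ⟨_, rfl⟩
    have hu0 : 0 ≤ u := by linarith
    have hv0 : 0 ≤ v := by linarith
    calc (0 : ℝ) ≤ (1575 / 2048) * v ^ 9
        + (10999 / 2048) * u * v ^ 8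
        + (158511 / 2048) * u ^ 2 * v ^ 7
        + (1160419 / 2048) * u ^ 3 * v ^ 6
        + (3813113 / 2048) * u ^ 4 * v ^ 5
        + (7270733 / 2048) * u ^ 5 * v ^ 4
        + (10672453 / 2048) * u ^ 6 * v ^ 3
        + (12289985 / 2048) * u ^ 7 * v ^ 2
        + (2433627 / 512) * u ^ 8 * v
        + (495171 / 256) * u ^ 9 := by positivity
      _ = _ := by rw [hu, hv]; ring
  · obtain ⟨u, hu⟩ : ∃ u, u = x - 4 := ⟨_, rfl⟩
    have hu0 : 0 ≤ u := by linarith
    calc (0 : ℝ) ≤ 507055104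
        + 829369728 * u
        + 616185352 * u ^ 2
        + 271092260 * u ^ 3
        + 77662810 * u ^ 4
        + 15040005 * u ^ 5
        + 1966818 * u ^ 6
        + 165604 * u ^ 7
        + 7906 * u ^ 8
        + 153 * u ^ 9 := by positivity
      _ = _ := by rw [hu]; ring

/-- A Bernstein coefficient of the gain of the regularisation. -/
theorem gainFull_21 {x : ℝ} (h0 : 0 ≤ x) :
    0 ≤ 109536 - 122640 * x + 577944 * x ^ 2 + 70684 * x ^ 3 - 47715 * x ^ 4
    + (260583 / 2) * x ^ 5 + 33111 * x ^ 6 - 1170 * x ^ 7 + 2398 * x ^ 8 + 153 * x ^ 9 := by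
  rcases le_total x 4 with h | h
  · obtain ⟨u, hu⟩ : ∃ u, u = x - 0 := ⟨_, rfl⟩
    obtain ⟨v, hv⟩ : ∃ v, v = 4 - x := ⟨_, rfl⟩
    have hu0 : 0 ≤ u := by linarith
    have hv0 : 0 ≤ v := by linarith
    calc (0 : ℝ) ≤ (3423 / 8192) * v ^ 9
        + (15477 / 8192) * u * v ^ 8
        + (36195 / 1024) * u ^ 2 * v ^ 7
        + (31601 / 128) * u ^ 3 * v ^ 6
        + (3053859 / 4096) * u ^ 4 * v ^ 5
        + (6926733 / 4096) * u ^ 5 * v ^ 4
        + (1841797 / 512) * u ^ 6 * v ^ 3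
        + (5149659 / 1024) * u ^ 7 * v ^ 2
        + (33975539 / 8192) * u ^ 8 * v
        + (14009689 / 8192) * u ^ 9 := by positivity
      _ = _ := by rw [hu, hv]; ring
  · obtain ⟨u, hu⟩ : ∃ u, u = x - 4 := ⟨_, rfl⟩
    have hu0 : 0 ≤ u := by linarith
    calc (0 : ℝ) ≤ 448310048
        + 736893296 * u
        + 547483528 * u ^ 2
        + 242205468 * u ^ 3
        + 70596787 * u ^ 4
        + (28122871 / 2) * u ^ 5
        + 1897183 * u ^ 6
        + 163694 * u ^ 7
        + 7906 * u ^ 8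
        + 153 * u ^ 9 := by positivity
      _ = _ := by rw [hu]; ring

/-- A Bernstein coefficient of the gain of the regularisation. -/
theorem gainFull_22 {x : ℝ} (h0 : 0 ≤ x) :
    0 ≤ 19936 + 338288 * x + 209200 * x ^ 2 - 444408 * x ^ 3 + 23652 * x ^ 4 + 181202 * x ^ 5
    + 16956 * x ^ 6 - 3080 * x ^ 7 + 2398 * x ^ 8 + 153 * x ^ 9 := by
  rcases le_total x 2 with h | h
  · obtain ⟨u, hu⟩ : ∃ u, u = x - 0 := ⟨_, rfl⟩
    obtain ⟨v, hv⟩ : ∃ v, v = 2 - x := ⟨_, rfl⟩
    have hu0 : 0 ≤ u := by linarith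
    have hv0 : 0 ≤ v := by linarith
    calc (0 : ℝ) ≤ (623 / 16) * v ^ 9
        + (13375 / 8) * u * v ^ 8
        + (108861 / 8) * u ^ 2 * v ^ 7
        + (179071 / 4) * u ^ 3 * v ^ 6
        + (578435 / 8) * u ^ 4 * v ^ 5
        + (130945 / 2) * u ^ 5 * v ^ 4
        + (403265 / 8) * u ^ 6 * v ^ 3
        + (197985 / 4) * u ^ 7 * v ^ 2
        + (571407 / 16) * u ^ 8 * v
        + (86533 / 8) * u ^ 9 := by positivity
      _ = _ := by rw [hu, hv]; ring
  · rcases le_total x 4 with h | h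
    · obtain ⟨u, hu⟩ : ∃ u, u = x - 2 := ⟨_, rfl⟩
      obtain ⟨v, hv⟩ : ∃ v, v = 4 - x := ⟨_, rfl⟩
      have hu0 : 0 ≤ u := by linarith
      have hv0 : 0 ≤ v := by linarith
      calc (0 : ℝ) ≤ (86533 / 8) * v ^ 9
          + (2543781 / 16) * u * v ^ 8
          + (4142733 / 4) * u ^ 2 * v ^ 7
          + (31291699 / 8) * u ^ 3 * v ^ 6
          + 9425180 * u ^ 4 * v ^ 5
          + (120248201 / 8) * u ^ 5 * v ^ 4
          + (63561699 / 4) * u ^ 6 * v ^ 3
          + (86131583 / 8) * u ^ 7 * v ^ 2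
          + (34047443 / 8) * u ^ 8 * v
          + (12004261 / 16) * u ^ 9 := by positivity
        _ = _ := by rw [hu, hv]; ring
    · obtain ⟨u, hu⟩ : ∃ u, u = x - 4 := ⟨_, rfl⟩
      have hu0 : 0 ≤ u := by linarith
      calc (0 : ℝ) ≤ 384136352
          + 639095408 * u
          + 477259792 * u ^ 2
          + 213185928 * u ^ 3
          + 63530764 * u ^ 4
          + 13082866 * u ^ 5
          + 1827548 * u ^ 6
          + 161784 * u ^ 7
          + 7906 * u ^ 8
          + 153 * u ^ 9 := by positivity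
        _ = _ := by rw [hu]; ring

/-- A Bernstein coefficient of the gain of the regularisation. -/
theorem gainSmall_00 {x : ℝ} (h0 : 0 ≤ x) (h1 : x ≤ (1 / 16)) :
    0 ≤ 141120 + 211680 * x + 180600 * x ^ 2 + 94324 * x ^ 3 + 130728 * x ^ 4
    + 104580 * x ^ 5 + 7788 * x ^ 6 - 4608 * x ^ 7 + 2398 * x ^ 8 + 153 * x ^ 9 := by
  obtain ⟨u, hu⟩ : ∃ u, u = x - 0 := ⟨_, rfl⟩
  obtain ⟨v, hv⟩ : ∃ v, v = (1 / 16) - x := ⟨_, rfl⟩
  have hu0 : 0 ≤ u := by linarith
  have hv0 : 0 ≤ v := by linarith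
  calc (0 : ℝ) ≤ 9697692556984320 * v ^ 9
      + 88188391690076160 * u * v ^ 8
      + 356438680912527360 * u ^ 2 * v ^ 7
      + 840403556346363904 * u ^ 3 * v ^ 6
      + 1273849848457592832 * u ^ 4 * v ^ 5
      + 1287271579759411200 * u ^ 5 * v ^ 4
      + 867248889340018688 * u ^ 6 * v ^ 3
      + 375616592735256576 * u ^ 7 * v ^ 2
      + 94902066398418400 * u ^ 8 * v
      + 10657057134433913 * u ^ 9 := by positivity
    _ = _ := by rw [hu, hv]; ring

/-- A Bernstein coefficient of the gain of the regularisation. -/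
theorem gainSmall_01 {x : ℝ} (h0 : 0 ≤ x) (h1 : x ≤ (1 / 16)) :
    0 ≤ 141120 + 211680 * x + 180600 * x ^ 2 + 94324 * x ^ 3 + 130728 * x ^ 4
    + 104580 * x ^ 5 + 7788 * x ^ 6 - 4608 * x ^ 7 + 2398 * x ^ 8 + 153 * x ^ 9 := by
  obtain ⟨u, hu⟩ : ∃ u, u = x - 0 := ⟨_, rfl⟩
  obtain ⟨v, hv⟩ : ∃ v, v = (1 / 16) - x := ⟨_, rfl⟩
  have hu0 : 0 ≤ u := by linarith
  have hv0 : 0 ≤ v := by linarith
  calc (0 : ℝ) ≤ 9697692556984320 * v ^ 9
      + 88188391690076160 * u * v ^ 8
      + 356438680912527360 * u ^ 2 * v ^ 7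
      + 840403556346363904 * u ^ 3 * v ^ 6
      + 1273849848457592832 * u ^ 4 * v ^ 5
      + 1287271579759411200 * u ^ 5 * v ^ 4
      + 867248889340018688 * u ^ 6 * v ^ 3
      + 375616592735256576 * u ^ 7 * v ^ 2
      + 94902066398418400 * u ^ 8 * v
      + 10657057134433913 * u ^ 9 := by positivity
    _ = _ := by rw [hu, hv]; ring

/-- A Bernstein coefficient of the gain of the regularisation. -/
theorem gainSmall_02 {x : ℝ} (h0 : 0 ≤ x) (h1 : x ≤ (1 / 16)) :
    0 ≤ 141120 + 211680 * x + 180600 * x ^ 2 + 94324 * x ^ 3 + 130728 * x ^ 4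
    + 104580 * x ^ 5 + 7788 * x ^ 6 - 4608 * x ^ 7 + 2398 * x ^ 8 + 153 * x ^ 9 := by
  obtain ⟨u, hu⟩ : ∃ u, u = x - 0 := ⟨_, rfl⟩
  obtain ⟨v, hv⟩ : ∃ v, v = (1 / 16) - x := ⟨_, rfl⟩
  have hu0 : 0 ≤ u := by linarith
  have hv0 : 0 ≤ v := by linarith
  calc (0 : ℝ) ≤ 9697692556984320 * v ^ 9
      + 88188391690076160 * u * v ^ 8
      + 356438680912527360 * u ^ 2 * v ^ 7
      + 840403556346363904 * u ^ 3 * v ^ 6
      + 1273849848457592832 * u ^ 4 * v ^ 5
      + 1287271579759411200 * u ^ 5 * v ^ 4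
      + 867248889340018688 * u ^ 6 * v ^ 3
      + 375616592735256576 * u ^ 7 * v ^ 2
      + 94902066398418400 * u ^ 8 * v
      + 10657057134433913 * u ^ 9 := by positivity
    _ = _ := by rw [hu, hv]; ring

/-- A Bernstein coefficient of the gain of the regularisation. -/
theorem gainSmall_10 {x : ℝ} (h0 : 0 ≤ x) (h1 : x ≤ (1 / 16)) :
    0 ≤ (4287304 / 25) + (3785052 / 25) * x + (14035734 / 25) * x ^ 2
    + (6365946 / 25) * x ^ 3 + (153753 / 25) * x ^ 4 + (1841727 / 20) * x ^ 5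
    + (2846551 / 100) * x ^ 6 - (48541 / 25) * x ^ 7 + 2398 * x ^ 8 + 153 * x ^ 9 := by
  obtain ⟨u, hu⟩ : ∃ u, u = x - 0 := ⟨_, rfl⟩
  obtain ⟨v, hv⟩ : ∃ v, v = (1 / 16) - x := ⟨_, rfl⟩
  have hu0 : 0 ≤ u := by linarith
  have hv0 : 0 ≤ v := by linarith
  calc (0 : ℝ) ≤ (294621287488159744 / 25) * v ^ 9
      + (2667848261947097088 / 25) * u * v ^ 8
      + (10740187434659610624 / 25) * u ^ 2 * v ^ 7
      + (25229855659955060736 / 25) * u ^ 3 * v ^ 6
      + (38112418438629556224 / 25) * u ^ 4 * v ^ 5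
      + (38393721544993849344 / 25) * u ^ 5 * v ^ 4
      + (25792569302641564672 / 25) * u ^ 6 * v ^ 3
      + (2228455853565135616 / 5) * u ^ 7 * v ^ 2
      + (2808661039851666656 / 25) * u ^ 8 * v
      + (314752768548876497 / 25) * u ^ 9 := by positivity
    _ = _ := by rw [hu, hv]; ring

/-- A Bernstein coefficient of the gain of the regularisation. -/
theorem gainSmall_11 {x : ℝ} (h0 : 0 ≤ x) (h1 : x ≤ (1 / 16)) :
    0 ≤ (3140704 / 25) + (4724352 / 25) * x + (8084184 / 25) * x ^ 2 + (1360371 / 25) * x ^ 3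
    + (2091681 / 50) * x ^ 4 + (587708 / 5) * x ^ 5 + (2038801 / 100) * x ^ 6
    - (72416 / 25) * x ^ 7 + 2398 * x ^ 8 + 153 * x ^ 9 := by
  obtain ⟨u, hu⟩ : ∃ u, u = x - 0 := ⟨_, rfl⟩
  obtain ⟨v, hv⟩ : ∃ v, v = (1 / 16) - x := ⟨_, rfl⟩
  have hu0 : 0 ≤ u := by linarith
  have hv0 : 0 ≤ v := by linarith
  calc (0 : ℝ) ≤ (215827535462662144 / 25) * v ^ 9
      + (1962738756498751488 / 25) * u * v ^ 8
      + (7934288856952602624 / 25) * u ^ 2 * v ^ 7
      + (18712872618804903936 / 25) * u ^ 3 * v ^ 6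
      + (28376271709102669824 / 25) * u ^ 4 * v ^ 5
      + (28690935962743865344 / 25) * u ^ 5 * v ^ 4
      + (19342226529859945472 / 25) * u ^ 6 * v ^ 3
      + (1676772742549339136 / 5) * u ^ 7 * v ^ 2
      + (2120109088363884256 / 25) * u ^ 8 * v
      + (238312668947551697 / 25) * u ^ 9 := by positivity
    _ = _ := by rw [hu, hv]; ring

/-- A Bernstein coefficient of the gain of the regularisation. -/
theorem gainSmall_12 {x : ℝ} (h0 : 0 ≤ x) (h1 : x ≤ (1 / 16)) :
    0 ≤ (1994104 / 25) + (5663652 / 25) * x + (2132634 / 25) * x ^ 2 - (3645204 / 25) * x ^ 3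
    + (1937928 / 25) * x ^ 4 + (2859937 / 20) * x ^ 5 + (1231051 / 100) * x ^ 6
    - (96291 / 25) * x ^ 7 + 2398 * x ^ 8 + 153 * x ^ 9 := by
  obtain ⟨u, hu⟩ : ∃ u, u = x - 0 := ⟨_, rfl⟩
  obtain ⟨v, hv⟩ : ∃ v, v = (1 / 16) - x := ⟨_, rfl⟩
  have hu0 : 0 ≤ u := by linarith
  have hv0 : 0 ≤ v := by linarith
  calc (0 : ℝ) ≤ (137033783437164544 / 25) * v ^ 9
      + (1257629251050405888 / 25) * u * v ^ 8
      + (5128390279245594624 / 25) * u ^ 2 * v ^ 7
      + (12195889577654747136 / 25) * u ^ 3 * v ^ 6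
      + (18640124979575783424 / 25) * u ^ 4 * v ^ 5
      + (18988150380493881344 / 25) * u ^ 5 * v ^ 4
      + (12891883757078326272 / 25) * u ^ 6 * v ^ 3
      + (1125089631533542656 / 5) * u ^ 7 * v ^ 2
      + (1431557136876101856 / 25) * u ^ 8 * v
      + (161872569346226897 / 25) * u ^ 9 := by positivity
    _ = _ := by rw [hu, hv]; ring

/-- A Bernstein coefficient of the gain of the regularisation. -/
theorem gainSmall_20 {x : ℝ} (h0 : 0 ≤ x) (h1 : x ≤ (1 / 16)) :
    0 ≤ (1005984 / 5) - (2505416 / 25) * x + (25372212 / 25) * x ^ 2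
    + (11272858 / 25) * x ^ 3 - (2960694 / 25) * x ^ 4 + (795927 / 10) * x ^ 5
    + (2457151 / 50) * x ^ 6 + (18118 / 25) * x ^ 7 + 2398 * x ^ 8 + 153 * x ^ 9 := by
  obtain ⟨u, hu⟩ : ∃ u, u = x - 0 := ⟨_, rfl⟩
  obtain ⟨v, hv⟩ : ∃ v, v = (1 / 16) - x := ⟨_, rfl⟩
  have hu0 : 0 ≤ u := by linarith
  have hv0 : 0 ≤ v := by linarith
  calc (0 : ℝ) ≤ (69130694084788224 / 5) * v ^ 9
      + (3100120554032594944 / 25) * u * v ^ 8
      + (12364250298296827904 / 25) * u ^ 2 * v ^ 7
      + (28781457217949794304 / 25) * u ^ 3 * v ^ 6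
      + (8618779538272288768 / 5) * u ^ 4 * v ^ 5
      + 1721611569979555840 * u ^ 5 * v ^ 4
      + (28674423518194563072 / 25) * u ^ 6 * v ^ 3
      + (12288059388605083136 / 25) * u ^ 7 * v ^ 2
      + (3073591181842061024 / 25) * u ^ 8 * v
      + (341889750042472401 / 25) * u ^ 9 := by positivity
    _ = _ := by rw [hu, hv]; ring

/-- A Bernstein coefficient of the gain of the regularisation. -/
theorem gainSmall_21 {x : ℝ} (h0 : 0 ≤ x) (h1 : x ≤ (1 / 16)) :
    0 ≤ (2728376 / 25) - (3018576 / 25) * x + (14376984 / 25) * x ^ 2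
    + (1711241 / 25) * x ^ 3 - (1176519 / 25) * x ^ 4 + (652516 / 5) * x ^ 5
    + (1649401 / 50) * x ^ 6 - (29632 / 25) * x ^ 7 + 2398 * x ^ 8 + 153 * x ^ 9 := by
  obtain ⟨u, hu⟩ : ∃ u, u = x - 0 := ⟨_, rfl⟩
  obtain ⟨v, hv⟩ : ∃ v, v = (1 / 16) - x := ⟨_, rfl⟩
  have hu0 : 0 ≤ u := by linarith
  have hv0 : 0 ≤ v := by linarith
  calc (0 : ℝ) ≤ (187492571059060736 / 25) * v ^ 9
      + (1674468454331056128 / 25) * u * v ^ 8
      + (6649874368778207232 / 25) * u ^ 2 * v ^ 7
      + (3082681707799773184 / 5) * u ^ 3 * v ^ 6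
      + (22979257745078747136 / 25) * u ^ 4 * v ^ 5
      + (22852035911732166656 / 25) * u ^ 5 * v ^ 4
      + (15158991545837275136 / 25) * u ^ 6 * v ^ 3
      + (6468186114114689024 / 25) * u ^ 7 * v ^ 2
      + (322179531983218016 / 5) * u ^ 8 * v
      + (178414871492606417 / 25) * u ^ 9 := by positivity
    _ = _ := by rw [hu, hv]; ring

/-- A Bernstein coefficient of the gain of the regularisation. -/
theorem gainSmall_22 {x : ℝ} (h0 : 0 ≤ x) (h1 : x ≤ (1 / 16)) :
    0 ≤ (488432 / 25) + (8516664 / 25) * x + (5158356 / 25) * x ^ 2 - (11169076 / 25) * x ^ 3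
    + (607656 / 25) * x ^ 4 + (1814137 / 10) * x ^ 5 + (841651 / 50) * x ^ 6
    - (77382 / 25) * x ^ 7 + 2398 * x ^ 8 + 153 * x ^ 9 := by
  obtain ⟨u, hu⟩ : ∃ u, u = x - 0 := ⟨_, rfl⟩
  obtain ⟨v, hv⟩ : ∃ v, v = (1 / 16) - x := ⟨_, rfl⟩
  have hu0 : 0 ≤ u := by linarith
  have hv0 : 0 ≤ v := by linarith
  calc (0 : ℝ) ≤ (33564791461117952 / 25) * v ^ 9
      + (338661916501082112 / 25) * u * v ^ 8
      + (300469505010696192 / 5) * u ^ 2 * v ^ 7
      + (3853154110077403136 / 25) * u ^ 3 * v ^ 6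
      + (6305530871474552832 / 25) * u ^ 4 * v ^ 5
      + (6835335949336870912 / 25) * u ^ 5 * v ^ 4
      + 196503150013143040 * u ^ 6 * v ^ 3
      + (2258814475222221312 / 25) * u ^ 7 * v ^ 2
      + (603286333383040736 / 25) * u ^ 8 * v
      + (71341820563194833 / 25) * u ^ 9 := by positivity
    _ = _ := by rw [hu, hv]; ring

end Vale.Agent.P219.CH.Eleven
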