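import Vale.Agent.P219.Eleven.BoxDiag
import Vale.Agent.P219.Eleven.BoxEdge
import Vale.Agent.P219.Eleven.BoxJ
import Vale.Agent.P219.Eleven.Poly
import Vale.Agent.P219.Ten.Cert

/-!
# P219, dimension eleven: the closed form certificate

The weight at a centre is `u (r, c) = num r c / (1782 r ^ 6 (2 + r) ^ 2)` with `c` the cosine at the
centre and `num r c = pA0 r + c ^ 2 pA2 r + c ^ 4 pA4 r`. The functions below are multiplied by `1782`.
The sine product is bounded by its tangent `Ten.cross`, as in dimension ten, so that the symmetrised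
integrand is cubic in `q = c d` for fixed `s = c + d` and lies above its secant.
-/

noncomputable section

namespace Vale.Agent.P219.CH.Eleven

open Ten (cross cross_comm cross_spec cosines_mem secant quad_nonneg)

/-- The numerator of the weight. -/
def num (r c : ℝ) : ℝ := pA0 r + c ^ 2 * pA2 r + c ^ 4 * pA4 r

/-- The numerator of the derivative of the weight. -/
def gnum (r c : ℝ) : ℝ := gA0 r + c ^ 2 * gA2 r + c ^ 4 * gA4 r

/-- The one-sided integrand times `r ^ 7 (2 + r) ^ 3`, with `g` in place of the sine product. -/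
def one (r c d g : ℝ) : ℝ :=
  1782 * r ^ 7 * (2 + r) ^ 3 + (1 - d ^ 2) * gnum r c + (9 + d ^ 2) * (2 + r) * num r c
    - 10 * d * r * (2 + r) * num r c + (2 + r) * (2 * pA2 r + 4 * pA4 r * c ^ 2) * (c * d) * g

/-- The one-sided integrand. -/
def psi (r c d : ℝ) : ℝ := one r c d (cross c d) / (r ^ 7 * (2 + r) ^ 3)

/-- The symmetrised integrand without the sine product. -/
def symP (r s q : ℝ) : ℝ :=
  symC0 r s + q * symC1 r s + q ^ 2 * symC2 r s + q ^ 3 * symC3 r s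

/-- The coefficient of the sine product. -/
def kap (r s q : ℝ) : ℝ := kap0 r + kap2 r * (s ^ 2 - 2 * q)

/-- The symmetrised integrand times `4 - s ^ 2`. -/
def symT (r s q : ℝ) : ℝ :=
  (4 - s ^ 2) * symP r s q - kap r s q * q * (4 - 3 * s ^ 2 + q * (4 + s ^ 2))

/-- The coefficient of the marginal terms. -/
def aCoef (t : ℝ) : ℝ := -(t * (hpol t + 2642944 / (1 + t)))

/-- The rational part of the marginal terms. -/
def rsum (s q : ℝ) : ℝ := 2642944 * (2 + s) / (1 + s + q)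

/-- The defect of the line inequality times `4 - s ^ 2`. -/
def lineT (r s q : ℝ) : ℝ :=
  symT r s q * (r ^ 3 / (2 + r) ^ 3) + (4 - s ^ 2) * (q * (hsum s q + rsum s q) - 181440 * q * r)

theorem one_sym (r c d g : ℝ) :
    one r c d g + one r d c g =
      symP r (c + d) (c * d) - kap r (c + d) (c * d) * (c * d) * g := by
  unfold one num gnum symP kap symC0 symC1 symC2 symC3 kap0 kap2 pA0 pA2 pA4 gA0 gA2 gA4
  ring

theorem marginal_eq {c d : ℝ} (hc : 0 ≤ c) (hd : 0 ≤ d) :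
    c * d * (hsum (c + d) (c * d) + rsum (c + d) (c * d)) = -(aCoef c * d) - aCoef d * c := by
  have h1 : 0 < 1 + c := by linarith
  have h2 : 0 < 1 + d := by linarith
  have e : hsum (c + d) (c * d) = hpol c + hpol d := by unfold hsum hpol; ring
  unfold rsum aCoef
  rw [e, show 1 + (c + d) + c * d = (1 + c) * (1 + d) by ring]
  field_simp
  ring

theorem aCoef_nonpos {t : ℝ} (h0 : 0 ≤ t) (h1 : t ≤ 1) : aCoef t ≤ 0 := by
  have h := aNum_ge h0 h1
  have ht : 0 < 1 + t := by linarith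
  have e : hpol t + 2642944 / (1 + t) = ((1 + t) * hpol t + 2642944) / (1 + t) := by field_simp
  unfold aCoef
  rw [e, neg_nonpos]
  exact mul_nonneg h0 (div_nonneg h ht.le)

/-! ## Concavity in the product of the cosines -/

/-- The admissible sums of three products lie between the two end values. -/
theorem bend_sym {r s σ : ℝ} (hr : 0 ≤ r) (hs : 0 ≤ s) (hs2 : s ≤ 2)
    (h0 : s ^ 2 / 4 + 2 * max 0 (s - 1) ≤ σ) (h1 : σ ≤ 3 / 4 * s ^ 2) :
    1 ≤ -(bendT2 r s + σ * bendT3 r s) := by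
  have eh : bendHigh r s = -(bendT2 r s + 3 / 4 * s ^ 2 * bendT3 r s) := by
    unfold bendHigh bendT2 bendT3; ring
  rcases le_total 0 (bendT3 r s) with h | h
  · have := bendHigh_ge hr hs hs2
    linarith [mul_le_mul_of_nonneg_right h1 h]
  · rcases le_total s 1 with h' | h'
    · rw [max_eq_left (by linarith)] at h0
      have el : bendLow r s = -(bendT2 r s + s ^ 2 / 4 * bendT3 r s) := by
        unfold bendLow bendT2 bendT3; ring
      have := bendLow_ge hr hs h'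
      linarith [mul_le_mul_of_nonpos_right h0 h]
    · rw [max_eq_right (by linarith)] at h0
      have el : bendMid r s = -(bendT2 r s + (s ^ 2 / 4 + 2 * (s - 1)) * bendT3 r s) := by
        unfold bendMid bendT2 bendT3; ring
      have := bendMid_ge hr h' hs2
      linarith [mul_le_mul_of_nonpos_right h0 h]

theorem bend_sym' {r s q0 q1 q : ℝ} (hr : 0 ≤ r) (hs : 0 ≤ s) (hs2 : s ≤ 2)
    (e0 : q0 = max 0 (s - 1)) (e1 : q1 = (s / 2) ^ 2) (h0 : q0 ≤ q) (h1 : q ≤ q1) :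
    1 ≤ -(bendT2 r s + (q0 + q + q1) * bendT3 r s) :=
  bend_sym hr hs hs2 (by rw [← e0]; linarith)
    (by linarith)

theorem symT_secant_eq (r s q0 q1 q : ℝ) :
    (q1 - q0) * symT r s q = (q1 - q) * symT r s q0 + (q - q0) * symT r s q1
      + -(bendT2 r s + (q0 + q + q1) * bendT3 r s) *
        ((q - q0) * (q1 - q) * (q1 - q0)) := by
  unfold symT symP kap symC0 symC1 symC2 symC3 kap0 kap2 bendT2 bendT3
  ring

theorem symT_secant {r s q0 q1 q : ℝ} (hr : 0 ≤ r) (hs : 0 ≤ s) (hs2 : s ≤ 2)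
    (e0 : q0 = max 0 (s - 1)) (e1 : q1 = (s / 2) ^ 2) (h0 : q0 ≤ q) (h1 : q ≤ q1) :
    (q1 - q) * symT r s q0 + (q - q0) * symT r s q1 ≤ (q1 - q0) * symT r s q := by
  have := mul_nonneg (zero_le_one.trans (bend_sym' hr hs hs2 e0 e1 h0 h1))
    (mul_nonneg (mul_nonneg (sub_nonneg.2 h0) (sub_nonneg.2 h1))
      (sub_nonneg.2 (h0.trans h1)))
  rw [symT_secant_eq]
  linarith

/-- The second difference of the marginal terms, from the polynomial part. -/
def bendH (s q0 q1 q : ℝ) : ℝ :=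
  hb2 s + hb3 s * (q0 + q + q1)
    + hb4 s * (q0 ^ 2 + q ^ 2 + q1 ^ 2 + q0 * q + q0 * q1 + q * q1)
    + hb5 s * (q0 ^ 3 + q ^ 3 + q1 ^ 3 + q0 ^ 2 * q + q0 ^ 2 * q1 + q ^ 2 * q0 + q ^ 2 * q1
      + q1 ^ 2 * q0 + q1 ^ 2 * q + q0 * q * q1)

theorem hsum_secant (s q0 q1 q : ℝ) :
    (q1 - q0) * (q * hsum s q) = (q1 - q) * (q0 * hsum s q0) + (q - q0) * (q1 * hsum s q1)
      - bendH s q0 q1 q * ((q - q0) * (q1 - q) * (q1 - q0)) := by
  unfold hsum bendH hb2 hb3 hb4 hb5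
  ring

theorem rsum_secant {s q0 q1 q : ℝ} (ha : 1 + s + q0 ≠ 0) (hm : 1 + s + q ≠ 0)
    (hb : 1 + s + q1 ≠ 0) :
    (q1 - q0) * (q * rsum s q) = (q1 - q) * (q0 * rsum s q0) + (q - q0) * (q1 * rsum s q1)
      + 2642944 * (2 + s) * (1 + s) / ((1 + s + q0) * (1 + s + q) * (1 + s + q1)) *
        ((q - q0) * (q1 - q) * (q1 - q0)) := by
  unfold rsum
  field_simp
  ring

theorem bendH_le {s q0 q1 q : ℝ} (hs : 0 ≤ s) (hs2 : s ≤ 2) (e0 : q0 = max 0 (s - 1))
    (e1 : q1 = (s / 2) ^ 2) (h0 : q0 ≤ q) (h1 : q ≤ q1) :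
    bendH s q0 q1 q ≤
      2642944 * (2 + s) * (1 + s) / ((1 + s + q0) * (1 + s + q) * (1 + s + q1)) := by
  have hq0 : 0 ≤ q0 := e0 ▸ le_max_left _ _
  have hq : 0 ≤ q := hq0.trans h0
  have hq1 : 0 ≤ q1 := hq.trans h1
  obtain ⟨m, hm⟩ : ∃ m, m = (q0 + q1) / 2 := ⟨_, rfl⟩
  have hm0 : 0 ≤ m := by rw [hm]; positivity
  obtain ⟨f, hf⟩ : ∃ f : ℝ → ℝ, ∀ x, f x = (hb2 s + hb3 s * (q0 + x + q1)
      + hb4 s * (q0 ^ 2 + q1 ^ 2 + 2 * x * (q0 + q1))
      + hb5 s * (q0 ^ 3 + m ^ 3 + q1 ^ 3 + q0 ^ 2 * m + q0 ^ 2 * q1 + m ^ 2 * q0 + m ^ 2 * q1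
        + q1 ^ 2 * q0 + q1 ^ 2 * m + q0 * m * q1
        + (x - m) * (3 * m ^ 2 + 2 * m * (q0 + q1) + q0 ^ 2 + q0 * q1 + q1 ^ 2))) *
      ((1 + s + q0) * (1 + s + q1) * (1 + s + m) ^ 2)
      - 2642944 * (2 + s) * (1 + s) * (2 * (1 + s + m) - (1 + s + x)) := ⟨_, fun _ => rfl⟩
  have hf0 : f q0 ≤ 0 ∧ f q1 ≤ 0 := by
    rw [hf, hf, hm, e0, e1]
    rcases le_total s 1 with h | h
    · rw [max_eq_left (by linarith)]
      have := bend_lo_zero hs h
      have := bend_lo_one hs h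
      unfold hb2 hb3 hb4 hb5
      constructor <;> linarith
    · rw [max_eq_right (by linarith)]
      have := bend_hi_zero h hs2
      have := bend_hi_one h hs2
      unfold hb2 hb3 hb4 hb5
      constructor <;> linarith
  have hfq : f q ≤ 0 := by
    rcases eq_or_lt_of_le (h0.trans h1) with he | he
    · rw [show q = q0 by linarith]; exact hf0.1
    have e : (q1 - q0) * f q = (q1 - q) * f q0 + (q - q0) * f q1 := by rw [hf, hf, hf]; ring
    refine nonpos_of_mul_nonpos_right (a := q1 - q0) ?_ (by linarith) |>.trans_eq rfl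
    rw [e]
    exact add_nonpos (mul_nonpos_of_nonneg_of_nonpos (sub_nonneg.2 h1) hf0.1)
      (mul_nonpos_of_nonneg_of_nonpos (sub_nonneg.2 h0) hf0.2)
  rw [hf, sub_nonpos] at hfq
  have h4 := mul_le_mul_of_nonneg_left
    (show q0 ^ 2 + q ^ 2 + q1 ^ 2 + q0 * q + q0 * q1 + q * q1 ≤
      q0 ^ 2 + q1 ^ 2 + 2 * q * (q0 + q1) by
      linarith [mul_nonneg (sub_nonneg.2 h0) (sub_nonneg.2 h1)]) (hb4_nonneg hs hs2)
  have h5 := mul_le_mul_of_nonpos_left
    (show q0 ^ 3 + m ^ 3 + q1 ^ 3 + q0 ^ 2 * m + q0 ^ 2 * q1 + m ^ 2 * q0 + m ^ 2 * q1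
        + q1 ^ 2 * q0 + q1 ^ 2 * m + q0 * m * q1
        + (q - m) * (3 * m ^ 2 + 2 * m * (q0 + q1) + q0 ^ 2 + q0 * q1 + q1 ^ 2) ≤
      q0 ^ 3 + q ^ 3 + q1 ^ 3 + q0 ^ 2 * q + q0 ^ 2 * q1 + q ^ 2 * q0 + q ^ 2 * q1
        + q1 ^ 2 * q0 + q1 ^ 2 * q + q0 * q * q1 by
      linarith [mul_nonneg (sq_nonneg (q - m)) (show 0 ≤ q + 2 * m + q0 + q1 by linarith)])
    (show hb5 s ≤ 0 by unfold hb5; linarith)
  have hB : bendH s q0 q1 q * ((1 + s + q0) * (1 + s + q1) * (1 + s + m) ^ 2) ≤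
      2642944 * (2 + s) * (1 + s) * (2 * (1 + s + m) - (1 + s + q)) :=
    le_trans (mul_le_mul_of_nonneg_right (by unfold bendH; linarith) (by positivity)) hfq
  rw [le_div_iff₀ (by positivity)]
  refine le_of_mul_le_mul_right ?_ (show (0 : ℝ) < (1 + s + m) ^ 2 by positivity)
  calc bendH s q0 q1 q * ((1 + s + q0) * (1 + s + q) * (1 + s + q1)) * (1 + s + m) ^ 2 =
      bendH s q0 q1 q * ((1 + s + q0) * (1 + s + q1) * (1 + s + m) ^ 2) * (1 + s + q) := by ring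
    _ ≤ 2642944 * (2 + s) * (1 + s) * (2 * (1 + s + m) - (1 + s + q)) * (1 + s + q) :=
      mul_le_mul_of_nonneg_right hB (by linarith)
    _ ≤ _ := by
      linarith [mul_nonneg (show 0 ≤ 2642944 * (2 + s) * (1 + s) by positivity)
        (sq_nonneg (1 + s + m - (1 + s + q)))]

theorem marginal_secant {s q0 q1 q : ℝ} (hs : 0 ≤ s) (hs2 : s ≤ 2) (e0 : q0 = max 0 (s - 1))
    (e1 : q1 = (s / 2) ^ 2) (h0 : q0 ≤ q) (h1 : q ≤ q1) :
    (q1 - q) * (q0 * (hsum s q0 + rsum s q0)) + (q - q0) * (q1 * (hsum s q1 + rsum s q1)) ≤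
      (q1 - q0) * (q * (hsum s q + rsum s q)) := by
  have hq0 : 0 ≤ q0 := e0 ▸ le_max_left _ _
  have er := rsum_secant (s := s) (q0 := q0) (q1 := q1) (q := q)
    (show 1 + s + q0 ≠ 0 by linarith) (show 1 + s + q ≠ 0 by linarith)
    (show 1 + s + q1 ≠ 0 by linarith)
  have eh := hsum_secant s q0 q1 q
  have := mul_le_mul_of_nonneg_right (bendH_le hs hs2 e0 e1 h0 h1)
    (mul_nonneg (mul_nonneg (sub_nonneg.2 h0) (sub_nonneg.2 h1)) (sub_nonneg.2 (h0.trans h1)))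
  linarith

theorem lineT_secant {r s q0 q1 q : ℝ} (hr : 0 ≤ r) (hs : 0 ≤ s) (hs2 : s ≤ 2)
    (e0 : q0 = max 0 (s - 1)) (e1 : q1 = (s / 2) ^ 2) (h0 : q0 ≤ q) (h1 : q ≤ q1) :
    (q1 - q) * lineT r s q0 + (q - q0) * lineT r s q1
        + r ^ 3 / (2 + r) ^ 3 * ((q - q0) * (q1 - q) * (q1 - q0)) ≤
      (q1 - q0) * lineT r s q := by
  have hk : 0 ≤ 4 - s ^ 2 := by nlinarith
  have hR : 0 ≤ r ^ 3 / (2 + r) ^ 3 := by positivity
  have a1 := mul_le_mul_of_nonneg_left (marginal_secant hs hs2 e0 e1 h0 h1) hk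
  have a2 := mul_le_mul_of_nonneg_left (mul_le_mul_of_nonneg_right (bend_sym' hr hs hs2 e0 e1 h0 h1)
    (mul_nonneg (mul_nonneg (sub_nonneg.2 h0) (sub_nonneg.2 h1)) (sub_nonneg.2 (h0.trans h1)))) hR
  have a3 := congrArg (fun x => r ^ 3 / (2 + r) ^ 3 * x) (symT_secant_eq r s q0 q1 q)
  unfold lineT
  linarith

/-! ## The symmetrised integrand -/

theorem symT_zero (r c : ℝ) : symT r c 0 = (4 - c ^ 2) * zeroS r c := by
  unfold symT symP symC0 zeroS; ring

theorem symT_one (r c : ℝ) : symT r (1 + c) c = (1 - c) * edgeS r c := by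
  unfold symT symP kap symC0 symC1 symC2 symC3 kap0 kap2 edgeS; ring

theorem symT_diag (r t : ℝ) : symT r (2 * t) (t ^ 2) = (4 - 4 * t ^ 2) * diagS r t := by
  unfold symT symP kap symC0 symC1 symC2 symC3 kap0 kap2 diagS; ring

theorem symT_low {r s : ℝ} (hr : 0 ≤ r) (hs : 0 ≤ s) (hs2 : s ≤ 2) :
    0 ≤ symT r s (max 0 (s - 1)) := by
  rcases le_total s 1 with h | h
  · rw [max_eq_left (by linarith), symT_zero]
    exact mul_nonneg (by nlinarith) (zero_le_one.trans (zeroS_ge hr hs h))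
  · rw [max_eq_right (by linarith)]
    obtain ⟨c, rfl⟩ : ∃ c, s = 1 + c := ⟨s - 1, by ring⟩
    rw [show 1 + c - 1 = c by ring, symT_one]
    exact mul_nonneg (by linarith) (hr.trans (edgeS_ge hr (by linarith) (by linarith)))

theorem symT_high {r s : ℝ} (hr : 0 ≤ r) (hs : 0 ≤ s) (hs2 : s ≤ 2) :
    0 ≤ symT r s ((s / 2) ^ 2) := by
  obtain ⟨t, rfl⟩ : ∃ t, s = 2 * t := ⟨s / 2, by ring⟩
  rw [show (2 * t / 2) ^ 2 = t ^ 2 by ring, symT_diag]
  exact mul_nonneg (by nlinarith) (hr.trans (diagS_ge hr (by linarith) (by linarith)))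

theorem symT_nonneg {r c d : ℝ} (hr : 0 ≤ r) (hc : 0 ≤ c) (hc1 : c ≤ 1) (hd : 0 ≤ d)
    (hd1 : d ≤ 1) : 0 ≤ symT r (c + d) (c * d) := by
  obtain ⟨h0, h1⟩ := cosines_mem hc hc1 hd hd1
  exact secant (f := symT r (c + d)) h0 h1 (symT_low hr (by linarith) (by linarith))
    (symT_high hr (by linarith) (by linarith))
    (symT_secant hr (by linarith) (by linarith) rfl rfl h0 h1)

theorem sym_one (r : ℝ) : symP r 2 1 = diagS r 1 := by
  unfold symP symC0 symC1 symC2 symC3 diagS; ring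

/-- The symmetrised integrand is nonnegative. -/
theorem one_nonneg {r c d : ℝ} (hr : 0 ≤ r) (hc : 0 ≤ c) (hc1 : c ≤ 1) (hd : 0 ≤ d)
    (hd1 : d ≤ 1) : 0 ≤ one r c d (cross c d) + one r d c (cross d c) := by
  rw [cross_comm d c, one_sym]
  by_cases h : c + d < 2
  · have hk : 0 < 4 - (c + d) ^ 2 := by nlinarith
    refine nonneg_of_mul_nonneg_right (a := 4 - (c + d) ^ 2) ?_ hk
    refine le_of_le_of_eq (symT_nonneg hr hc hc1 hd hd1) ?_
    rw [symT, Ten.cross, if_pos h]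
    field_simp
  · obtain ⟨rfl, rfl⟩ : c = 1 ∧ d = 1 := ⟨by linarith, by linarith⟩
    rw [Ten.cross, if_neg h, show (1 : ℝ) + 1 = 2 by norm_num, one_mul, mul_zero, sub_zero, sym_one]
    exact hr.trans (diagS_ge hr zero_le_one le_rfl)

/-! ## The line inequality on the edges -/

theorem line_diag {r t : ℝ} (hr : 0 ≤ r) (ht : 0 ≤ t) :
    lineT r (2 * t) (t ^ 2) * ((2 + r) ^ 3 * (1 + t)) =
      (4 - 4 * t ^ 2) * ((r - 2 * t) ^ 2 * diagJ r t) := by
  have h1 : 0 < 1 + t := by linarith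
  have h2 : 0 < 2 + r := by linarith
  have e : hsum (2 * t) (t ^ 2) = 2 * hpol t := by unfold hsum hpol; ring
  have e2 : rsum (2 * t) (t ^ 2) = 2 * 2642944 / (1 + t) := by
    unfold rsum
    rw [show 1 + 2 * t + t ^ 2 = (1 + t) ^ 2 by ring]
    field_simp
  rw [lineT, symT_diag, e, e2]
  field_simp
  unfold diagS hpol diagJ
  ring

/-- The defect on the edge `d = 1`, times `(2 + r) ^ 3 (1 + c) / (1 - c)`. -/
def edgeF (r c : ℝ) : ℝ :=
  r ^ 3 * edgeS r c * (1 + c)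
    + (3 + c) * (2 + r) ^ 3 * c * (edgeSig c - 181440 * r * (1 + c))

theorem line_edge {r c : ℝ} (hr : 0 ≤ r) (hc : 0 ≤ c) :
    lineT r (1 + c) c * ((2 + r) ^ 3 * (1 + c)) = (1 - c) * edgeF r c := by
  have h1 : 0 < 1 + c := by linarith
  have h2 : 0 < 2 + r := by linarith
  have e : hsum (1 + c) c + rsum (1 + c) c = edgeSig c / (1 + c) := by
    unfold rsum
    rw [show 1 + (1 + c) + c = 2 * (1 + c) by ring]
    field_simp
    unfold hsum edgeSig
    ring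
  rw [lineT, symT_one, e, edgeF]
  field_simp
  ring

/-- The square coefficient on the edge `d = 1`. -/
def edgeSq (v c : ℝ) : ℝ :=
  edge2 c + v * edge3 c + v ^ 2 * (edge4 c + v * edge5 c) + v ^ 4 * (edge6 c + v * edge7 c)
    + v ^ 6 * (edge8 c + v * edge9 c) + v ^ 8 * (edge10 c + v * edge11 c)
    + v ^ 10 * (edge12 c + v * edge13 c)

theorem edgeF_expand (v c : ℝ) :
    edgeF (1 + c + v) c =
      (1 - c) * edge0 c + (1 - c) * edge1 c * v + edgeSq v c * v ^ 2 := by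
  unfold edgeF edgeS edgeSig edgeSq edge0 edge1 edge2 edge3 edge4 edge5 edge6 edge7 edge8 edge9
    edge10 edge11 edge12 edge13
  ring

theorem pair_nonneg {v a b : ℝ} (hv : -(1 / 4) ≤ v) (hb : 0 ≤ b) (hab : 1 / 4 * b ≤ a) :
    0 ≤ a + v * b := by
  linarith [mul_le_mul_of_nonneg_right hv hb]

theorem edgeSq_ge {v c : ℝ} (hc : 0 ≤ c) (hc1 : c ≤ 1)
    (hv : 24 / 25 + 31 / 50 * c + 17 / 50 * c ^ 2 - (1 + c) ≤ v) :
    3000000 + 22000000 * c ≤ edgeSq v c := by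
  have hv2 : -(1 / 4) ≤ v := by linarith [sq_nonneg (c - 19 / 34)]
  have h3 := edgeLin hc hc1
  have := mul_le_mul_of_nonneg_right hv (edge3_nonneg hc hc1)
  have := mul_nonneg (show 0 ≤ v ^ 2 by positivity)
    (pair_nonneg hv2 (edge5_nonneg hc hc1) (edge4_pair hc hc1))
  have := mul_nonneg (show 0 ≤ v ^ 4 by positivity)
    (pair_nonneg hv2 (edge7_nonneg hc hc1) (edge6_pair hc hc1))
  have := mul_nonneg (show 0 ≤ v ^ 6 by positivity)
    (pair_nonneg hv2 (edge9_nonneg hc hc1) (edge8_pair hc hc1))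
  have := mul_nonneg (show 0 ≤ v ^ 8 by positivity)
    (pair_nonneg hv2 (edge11_nonneg hc hc1) (edge10_pair hc hc1))
  have := mul_nonneg (show 0 ≤ v ^ 10 by positivity)
    (pair_nonneg hv2 (edge13_nonneg hc hc1) (edge12_pair hc hc1))
  unfold edgeSq
  linarith

theorem edgeF_low {r c : ℝ} (hr : 0 ≤ r) (hc : 0 ≤ c) (hc1 : c ≤ 1)
    (h : r ≤ 24 / 25 + 31 / 50 * c + 17 / 50 * c ^ 2) :
    r ^ 3 * r * (1 + c) ≤ edgeF r c := by
  have h1 : 0 ≤ edgeSig c - 181440 * r * (1 + c) := by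
    have := threshold hc hc1
    have := mul_le_mul_of_nonneg_right h (show 0 ≤ 181440 * (1 + c) by positivity)
    linarith
  have h2 := mul_le_mul_of_nonneg_right
    (mul_le_mul_of_nonneg_left (edgeS_ge hr hc hc1) (pow_nonneg hr 3))
    (show 0 ≤ 1 + c by linarith)
  have h3 := mul_nonneg (show 0 ≤ (3 + c) * (2 + r) ^ 3 * c by positivity) h1
  unfold edgeF
  linarith

theorem edgeF_nonneg {r c : ℝ} (hr : 0 ≤ r) (hc : 0 ≤ c) (hc1 : c ≤ 1) : 0 ≤ edgeF r c := by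
  rcases le_total r (24 / 25 + 31 / 50 * c + 17 / 50 * c ^ 2) with h | h
  · exact le_trans (by positivity) (edgeF_low hr hc hc1 h)
  · obtain ⟨v, rfl⟩ : ∃ v, r = 1 + c + v := ⟨r - 1 - c, by ring⟩
    rw [edgeF_expand]
    have hC := edgeSq_ge hc hc1 (v := v) (by linarith)
    have hQ := edge_disc hc hc1
    have h0 : 0 ≤ edge0 c := zero_le_one.trans (edge0_ge hc hc1)
    have hCpos : 0 < edgeSq v c := lt_of_lt_of_le (by positivity) hC
    have := quad_nonneg (x := v) (b := (1 - c) * edge1 c) (e := (1 - c) * edge0 c) hCpos (by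
      have h1 := mul_le_mul_of_nonneg_left
        (hQ.trans (mul_le_mul_of_nonneg_left hC (show 0 ≤ 4 * edge0 c by positivity)))
        (sub_nonneg.2 hc1)
      linarith)
    linarith

theorem lineT_low {r s : ℝ} (hr : 0 ≤ r) (hs : 0 ≤ s) (hs2 : s ≤ 2) :
    0 ≤ lineT r s (max 0 (s - 1)) := by
  rcases le_total s 1 with h | h
  · rw [max_eq_left (by linarith), lineT, symT_zero, mul_zero, zero_mul, zero_mul, sub_zero, mul_zero,
      add_zero]
    exact mul_nonneg (mul_nonneg (by nlinarith) (zero_le_one.trans (zeroS_ge hr hs h)))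
      (by positivity)
  · rw [max_eq_right (by linarith)]
    obtain ⟨c, rfl⟩ : ∃ c, s = 1 + c := ⟨s - 1, by ring⟩
    rw [show 1 + c - 1 = c by ring]
    refine nonneg_of_mul_nonneg_left (b := (2 + r) ^ 3 * (1 + c)) ?_
      (mul_pos (by positivity) (by linarith))
    rw [line_edge hr (by linarith)]
    exact mul_nonneg (by linarith) (edgeF_nonneg hr (by linarith) (by linarith))

theorem lineT_high {r s : ℝ} (hr : 0 ≤ r) (hs : 0 ≤ s) (hs2 : s ≤ 2) :
    0 ≤ lineT r s ((s / 2) ^ 2) := by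
  obtain ⟨t, rfl⟩ : ∃ t, s = 2 * t := ⟨s / 2, by ring⟩
  rw [show (2 * t / 2) ^ 2 = t ^ 2 by ring]
  have ht : 0 ≤ t := by linarith
  refine nonneg_of_mul_nonneg_left (b := (2 + r) ^ 3 * (1 + t)) ?_ (by positivity)
  rw [line_diag hr ht]
  exact mul_nonneg (by nlinarith)
    (mul_nonneg (sq_nonneg _) (hr.trans (diagJ_ge hr ht (by linarith))))

theorem lineT_nonneg {r c d : ℝ} (hr : 0 ≤ r) (hc : 0 ≤ c) (hc1 : c ≤ 1) (hd : 0 ≤ d)
    (hd1 : d ≤ 1) : 0 ≤ lineT r (c + d) (c * d) := by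
  obtain ⟨h0, h1⟩ := cosines_mem hc hc1 hd hd1
  refine secant (f := lineT r (c + d)) h0 h1 (lineT_low hr (by linarith) (by linarith))
    (lineT_high hr (by linarith) (by linarith)) ?_
  have := lineT_secant hr (show 0 ≤ c + d by linarith) (show c + d ≤ 2 by linarith) rfl rfl h0 h1
  have : 0 ≤ r ^ 3 / (2 + r) ^ 3 * ((c * d - max 0 (c + d - 1)) *
      (((c + d) / 2) ^ 2 - c * d) * (((c + d) / 2) ^ 2 - max 0 (c + d - 1))) :=
    mul_nonneg (by positivity) (mul_nonneg (mul_nonneg (sub_nonneg.2 h0) (sub_nonneg.2 h1))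
      (sub_nonneg.2 (h0.trans h1)))
  linarith

theorem diag_one {r : ℝ} (hr : 0 ≤ r) :
    diagS r 1 * (r ^ 3 / (2 + r) ^ 3) + 2 * (hpol 1 + 2642944 / 2) - 181440 * r =
      (r - 2) ^ 2 * diagJ r 1 / ((2 + r) ^ 3 * 2) := by
  have h2 : 0 < 2 + r := by linarith
  field_simp
  unfold diagS hpol diagJ
  ring

/-- The line inequality, with equality for `r = 2 c = 2 d`. -/
theorem line_inequality {r c d : ℝ} (hr : 0 ≤ r) (hc : 0 ≤ c) (hc1 : c ≤ 1) (hd : 0 ≤ d)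
    (hd1 : d ≤ 1) :
    aCoef c * d + aCoef d * c + 181440 * (c * d) * r ≤
      (one r c d (cross c d) + one r d c (cross d c)) * (r ^ 3 / (2 + r) ^ 3) := by
  rw [cross_comm d c, one_sym, ← sub_nonneg]
  have hm := marginal_eq hc hd
  by_cases h : c + d < 2
  · have hk : 0 < 4 - (c + d) ^ 2 := by nlinarith
    refine nonneg_of_mul_nonneg_right (a := 4 - (c + d) ^ 2) ?_ hk
    refine le_of_le_of_eq (lineT_nonneg hr hc hc1 hd hd1) ?_
    rw [lineT, symT, Ten.cross, if_pos h, hm]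
    field_simp
    ring
  · obtain ⟨rfl, rfl⟩ : c = 1 ∧ d = 1 := ⟨by linarith, by linarith⟩
    rw [Ten.cross, if_neg h, show (1 : ℝ) + 1 = 2 by norm_num, one_mul, mul_zero, sub_zero, sym_one]
    have e := diag_one hr
    have : 0 ≤ (r - 2) ^ 2 * diagJ r 1 / ((2 + r) ^ 3 * 2) :=
      div_nonneg (mul_nonneg (sq_nonneg _) (hr.trans (diagJ_ge hr zero_le_one le_rfl)))
        (by positivity)
    unfold aCoef
    norm_num
    linarith

theorem psi_sum {r : ℝ} (hr : 0 < r) (c d : ℝ) :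
    r ^ 7 * (2 + r) ^ 3 * (psi r c d + psi r d c) =
      one r c d (cross c d) + one r d c (cross d c) := by
  have : 0 < 2 + r := by linarith
  unfold psi
  field_simp

theorem psi_nonneg {r c d : ℝ} (hr : 0 < r) (hc : 0 ≤ c) (hc1 : c ≤ 1) (hd : 0 ≤ d)
    (hd1 : d ≤ 1) : 0 ≤ psi r c d + psi r d c := by
  refine nonneg_of_mul_nonneg_right (a := r ^ 7 * (2 + r) ^ 3) ?_ (by positivity)
  rw [psi_sum hr]
  exact one_nonneg hr.le hc hc1 hd hd1

/-- The same after the regularisation of the distance. -/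
theorem line_regular {r ρ c d : ℝ} (hr : 0 ≤ r) (hρ : r ≤ ρ) (hρ0 : 0 < ρ) (hc : 0 ≤ c)
    (hc1 : c ≤ 1) (hd : 0 ≤ d) (hd1 : d ≤ 1) :
    aCoef c * d + aCoef d * c + 181440 * (c * d) * r * (r / ρ) ^ 9 ≤
      r ^ 10 * (psi ρ c d + psi ρ d c) := by
  obtain ⟨k, hk⟩ : ∃ k, k = (r / ρ) ^ 10 := ⟨_, rfl⟩
  have hk0 : 0 ≤ k := by rw [hk]; positivity
  have hk1 : k ≤ 1 := hk ▸ pow_le_one₀ (div_nonneg hr hρ0.le) ((div_le_one hρ0).2 hρ)
  have h1 := mul_le_mul_of_nonneg_left (line_inequality hρ0.le hc hc1 hd hd1) hk0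
  have hn : aCoef c * d + aCoef d * c ≤ 0 := add_nonpos
    (mul_nonpos_of_nonpos_of_nonneg (aCoef_nonpos hc hc1) hd)
    (mul_nonpos_of_nonpos_of_nonneg (aCoef_nonpos hd hd1) hc)
  have e1 : k * ρ = r * (r / ρ) ^ 9 := by rw [hk]; field_simp
  have e2 : k * ((one ρ c d (cross c d) + one ρ d c (cross d c)) * (ρ ^ 3 / (2 + ρ) ^ 3)) =
      r ^ 10 * (psi ρ c d + psi ρ d c) := by
    rw [hk, ← psi_sum hρ0]
    field_simp
  have h3 : k * (181440 * (c * d) * ρ) = 181440 * (c * d) * r * (r / ρ) ^ 9 := by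
    calc k * (181440 * (c * d) * ρ) = 181440 * (c * d) * (k * ρ) := by ring
      _ = _ := by rw [e1]; ring
  have h4 := mul_le_mul_of_nonpos_right hk1 hn
  linarith

end Vale.Agent.P219.CH.Eleven
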