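import Vale.Agent.P219.Flat.Tree
import Vale.Agent.P219.Eleven.Defs

/-!
# P219, dimension eleven: kernel checks of two-variable rows

A row is given by its integer coefficients, in Horner form, and checked on boxes that cover the
half line in the distance times an interval in the second variable.
-/

noncomputable section

namespace Vale.Agent.P219.CH.Eleven

open Vale.Agent.P219.Poly Vale.Agent.P219.Poly.E Vale.Agent.P219.Poly.E.Subdiv

/-- Horner form in the second variable. -/
def hornerY : List ℤ → E
  | [] => .k 0
  | [z] => .k z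
  | z :: l => .add (.k z) (.mul (.x 1) (hornerY l))

/-- Horner form in the distance. -/
def hornerR : List (List ℤ) → E
  | [] => .k 0
  | [z] => hornerY z
  | z :: l => .add (hornerY z) (.mul (.x 0) (hornerR l))

/-- The three ranges of the distance. -/
def rRange : Fin 3 → Side := ![⟨false, 0, 1⟩, ⟨false, 1, 1⟩, ⟨true, 0, 1⟩]

/-- A box over a range of the distance. -/
def box2 (k : Fin 3) (a : ℕ) : Fin 3 → Side := ![rRange k, ⟨false, a, 1⟩, ⟨false, 0, 1⟩]

/-- The checks on the three ranges give the row on the half line. -/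
lemma nonneg_of_trees {p : E} {a : ℕ} {t0 t1 t2 : Subdiv Unit}
    (h0 : Subdiv.ok (fun _ => true) (fun _ => [p]) t0 (box2 0 a) = true)
    (h1 : Subdiv.ok (fun _ => true) (fun _ => [p]) t1 (box2 1 a) = true)
    (h2 : Subdiv.ok (fun _ => true) (fun _ => [p]) t2 (box2 2 a) = true)
    {r y : ℝ} (hr : 0 ≤ r) (ha : (a : ℝ) ≤ y) (hb : y ≤ a + 1) : 0 ≤ sem ![r, y, 0] p := by
  have key : ∀ (k : Fin 3) (t : Subdiv Unit),
      Subdiv.ok (fun _ => true) (fun _ => [p]) t (box2 k a) = true → (rRange k).Mem r →
      0 ≤ sem ![r, y, 0] p := by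
    intro k t h hk
    have hq : ∀ i, 0 < (box2 k a i).q := fun i => by
      fin_cases i <;> fin_cases k <;> simp [box2, rRange]
    have hw : InBox (box2 k a) ![r, y, 0] := fun i => by
      fin_cases i
      · exact hk
      · simp [box2, Side.Mem, ha, hb]
      · simp [box2, Side.Mem]
    obtain ⟨-, -, hp⟩ := Subdiv.sound t _ h hq _ hw
    exact hp p (List.mem_singleton_self p)
  rcases le_total r 1 with h | h
  · exact key 0 t0 h0 (by simp [rRange, Side.Mem, hr, h])
  rcases le_total r 2 with h' | h'
  · exact key 1 t1 h1 (by simp [rRange, Side.Mem, h]; linarith)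
  · exact key 2 t2 h2 (by
      simp [rRange, Side.Mem, h']
      linarith)

end Vale.Agent.P219.CH.Eleven
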