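import Vale.Agent.P219.Eleven.Weight
import Vale.Agent.P219.Gen.Law

/-!
# P219, dimension eleven: the certificate
-/

noncomputable section

open MeasureTheory Set

namespace Vale.Agent.P219.CH.Eleven

/-- The integrand of the value is a polynomial. -/
theorem integral_value :
    ∫ c in (0 : ℝ)..1, -(aCoef c / 1782) * (1 - c ^ 2) ^ 4 = 112384 / 38115 := by
  have e : ∀ c ∈ uIcc (0 : ℝ) 1, -(aCoef c / 1782) * (1 - c ^ 2) ^ 4 =
      120960 / 1782 * c ^ 2 - 418880 / 1782 * c ^ 4 - 212736 / 1782 * c ^ 5
        + 2094400 / 1782 * c ^ 6 - 1938944 / 1782 * c ^ 7 - 5978304 / 1782 * c ^ 8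
        + 12308352 / 1782 * c ^ 9 + 4100608 / 1782 * c ^ 10 - 22946304 / 1782 * c ^ 11
        + 6736704 / 1782 * c ^ 12 + 17569280 / 1782 * c ^ 13 - 11037120 / 1782 * c ^ 14
        - 4561920 / 1782 * c ^ 15 + 4751296 / 1782 * c ^ 16 - 217728 / 1782 * c ^ 17
        - 369664 / 1782 * c ^ 18 := by
    intro c hc
    rw [uIcc_of_le zero_le_one] at hc
    have h : 0 < 1 + c := by linarith [hc.1]
    unfold aCoef hpol
    field_simp
    ring
  rw [intervalIntegral.integral_congr e]
  simp (disch := exact Continuous.intervalIntegrable (by fun_prop) _ _) only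
    [intervalIntegral.integral_add, intervalIntegral.integral_sub,
      intervalIntegral.integral_const_mul, integral_pow]
  norm_num

theorem continuousOn_aCoef : ContinuousOn (fun c => -(aCoef c / 1782)) (Icc 0 1) := by
  have hd : ContinuousOn (fun c : ℝ => 2642944 / (1 + c)) (Icc 0 1) :=
    ContinuousOn.div (by fun_prop) (by fun_prop) fun c hc => by
      have := hc.1
      positivity
  unfold aCoef hpol
  exact (((continuousOn_id.mul ((Continuous.continuousOn (by fun_prop)).add hd)).neg).div_const _).neg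

theorem value_eleven :
    Gen.cmean 11 (fun c => -(aCoef c / 1782)) = (560 / 11) / ((11 : ℕ) : ℝ) - 1 := by
  have hm : Measurable fun c => -(aCoef c / 1782) := by unfold aCoef hpol; fun_prop
  obtain ⟨B, hB⟩ := isCompact_Icc.bddAbove_image continuousOn_aCoef
  have h := Gen.Law.cmean_eq 4 hm continuousOn_aCoef (B := B) fun c hc =>
    ⟨neg_nonneg.2 (div_nonpos_of_nonpos_of_nonneg (aCoef_nonpos hc.1 hc.2) (by norm_num)),
      hB ⟨c, hc, rfl⟩⟩
  have hK : (∫ c in (-1 : ℝ)..1, (1 - c ^ 2) ^ 4) = 256 / 315 := by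
    have e : ∀ c ∈ uIcc (-1 : ℝ) 1, (1 - c ^ 2) ^ 4 =
        1 * c ^ 0 - 4 * c ^ 2 + 6 * c ^ 4 - 4 * c ^ 6 + 1 * c ^ 8 :=
      fun c _ => by ring
    rw [intervalIntegral.integral_congr e]
    simp (disch := exact Continuous.intervalIntegrable (by fun_prop) _ _) only
      [intervalIntegral.integral_add, intervalIntegral.integral_sub,
        intervalIntegral.integral_const_mul, integral_pow]
    norm_num
  rw [integral_value, hK] at h
  change Gen.cmean 11 (fun c => -(aCoef c / 1782)) * (256 / 315) = 112384 / 38115 at h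
  push_cast
  linarith

/-- The certificate of the sharp constant in dimension eleven. -/
theorem cert_eleven : Gen.Cert 11 (fun c => aCoef c / 1782) (560 / 11) where
  b_nonneg := by norm_num
  measurable_a := by unfold aCoef hpol; fun_prop
  a_nonpos := fun c hc => div_nonpos_of_nonpos_of_nonneg (aCoef_nonpos hc.1 hc.2) (by norm_num)
  a_bounded := by
    obtain ⟨B, hB⟩ := isCompact_Icc.bddAbove_image continuousOn_aCoef
    exact ⟨B, fun c hc => neg_le.2 (hB ⟨c, hc, rfl⟩)⟩
  value := value_eleven
  weight := fun _ _ hε hT => weight_cert hε hT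

end Vale.Agent.P219.CH.Eleven
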