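import Vale.Agent.P219.Eleven.Cert
import Vale.Agent.P219.Eight.Weight

/-!
# P219, dimension eleven: the regularised weight

The distance is replaced by the square root of `Eight.rho2 η p`. For a distance below `1 / 16` the
regularisation only gains; above, its loss is of order `η ^ 2`.
-/

noncomputable section

open Set Filter Topology

namespace Vale.Agent.P219.CH.Eleven

open Eight (rho2 rho2_pos rho2_of_gt contDiff_rho2)
open Ten (cross cross_spec)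

/-- The regularised distance as a function of the half squared distance. -/
def dist' (η p : ℝ) : ℝ := Real.sqrt (rho2 η p)

theorem dist'_pos {η : ℝ} (hη : η ≠ 0) (p : ℝ) : 0 < dist' η p :=
  Real.sqrt_pos.2 (rho2_pos hη p)

theorem contDiff_dist' {η : ℝ} (hη : η ≠ 0) : ContDiff ℝ 1 (dist' η) :=
  (contDiff_rho2 η).sqrt fun p => (rho2_pos hη p).ne'

/-- The weight. -/
def weight (η : ℝ) (z : ℝ × ℝ) : ℝ :=
  (pA0 (dist' η z.1) / dist' η z.1 ^ 7 + z.2 ^ 2 * pA2 (dist' η z.1) / dist' η z.1 ^ 9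
    + z.2 ^ 4 * pA4 (dist' η z.1) / dist' η z.1 ^ 11) / (2 + dist' η z.1) ^ 2 / 1782

theorem contDiff_weight {η : ℝ} (hη : η ≠ 0) : ContDiff ℝ 1 (weight η) := by
  have hρ : ContDiff ℝ 1 fun z : ℝ × ℝ => dist' η z.1 := (contDiff_dist' hη).comp contDiff_fst
  have h0 : ContDiff ℝ 1 pA0 := by unfold pA0; fun_prop
  have h2 : ContDiff ℝ 1 pA2 := by unfold pA2; fun_prop
  have h4 : ContDiff ℝ 1 pA4 := by unfold pA4; fun_prop
  have hp : ∀ k : ℕ, ∀ z : ℝ × ℝ, dist' η z.1 ^ k ≠ 0 := fun k z =>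
    (pow_pos (dist'_pos hη _) k).ne'
  unfold weight
  exact (((((h0.comp hρ).div (hρ.pow 7) (hp 7)).add
    (((contDiff_snd.pow 2).mul (h2.comp hρ)).div (hρ.pow 9) (hp 9))).add
    (((contDiff_snd.pow 4).mul (h4.comp hρ)).div (hρ.pow 11) (hp 11))).div
    ((contDiff_const.add hρ).pow 2)
      fun z => (pow_pos (add_pos two_pos (dist'_pos hη _)) 2).ne').div_const _

/-- The slope in the squared cosine is nonpositive. -/
theorem slope_nonpos {R u : ℝ} (hR : 0 ≤ R) (h0 : 0 ≤ u) (h1 : u ≤ 2) :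
    pA2 R + u * pA4 R ≤ 0 := by
  rcases le_total 0 (pA4 R) with h | h
  · linarith [mul_le_mul_of_nonneg_right h1 h, neg_pA24 hR]
  · linarith [mul_le_mul_of_nonpos_right h0 h, neg_pA2 hR]

/-- The numerator dominates the distance. -/
theorem num_ge {R t : ℝ} (hR : 0 ≤ R) (h0 : 0 ≤ t) (h1 : t ≤ 1) :
    R ≤ pA0 R + t * pA2 R + t ^ 2 * pA4 R := by
  have := num_one hR
  have := mul_nonneg (sub_nonneg.2 h1)
    (neg_nonneg.2 (slope_nonpos hR (u := 1 + t) (by linarith) (by linarith)))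
  linarith

theorem weight_pos {η : ℝ} (hη : η ≠ 0) {p q : ℝ} (hp : 0 ≤ p) (hq : q ^ 2 ≤ 2 * p) :
    0 < weight η (p, q) := by
  have h2 : 0 < η ^ 2 := by positivity
  obtain ⟨R, hR⟩ : ∃ R, R = dist' η p := ⟨_, rfl⟩
  have hR0 : 0 < R := hR ▸ dist'_pos hη p
  have hR2 : R ^ 2 = η ^ 2 + 2 * p := by
    rw [hR, dist', Real.sq_sqrt (rho2_pos hη p).le, rho2_of_gt hη (by linarith)]
  simp only [weight, ← hR]
  refine div_pos (div_pos ?_ (by positivity)) (by norm_num)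
  obtain ⟨t, ht⟩ : ∃ t, t = q ^ 2 / R ^ 2 := ⟨_, rfl⟩
  have e : pA0 R / R ^ 7 + q ^ 2 * pA2 R / R ^ 9 + q ^ 4 * pA4 R / R ^ 11 =
      (pA0 R + t * pA2 R + t ^ 2 * pA4 R) / R ^ 7 := by
    rw [ht]
    field_simp
  rw [e]
  refine div_pos (hR0.trans_le (num_ge hR0.le (ht ▸ by positivity) ?_)) (by positivity)
  rw [ht, div_le_one (by positivity)]
  linarith

/-- The two partial derivatives of the weight for `p ≥ 0`. -/
theorem fderiv_weight {η : ℝ} (hη : η ≠ 0) {p ρ : ℝ} (hp : 0 ≤ p) (hρ0 : 0 < ρ)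
    (hρ : ρ ^ 2 = η ^ 2 + 2 * p) (q : ℝ) :
    Dir.wa (weight η) (p, q) =
      ((gA0 ρ - (2 + ρ) * pA0 ρ) / ρ ^ 9 + q ^ 2 * (gA2 ρ - 3 * (2 + ρ) * pA2 ρ) / ρ ^ 11
        + q ^ 4 * (gA4 ρ - 5 * (2 + ρ) * pA4 ρ) / ρ ^ 13) / (2 + ρ) ^ 3 / 1782 ∧
    Dir.wb (weight η) (p, q) =
      q * (2 * pA2 ρ / ρ ^ 9 + 4 * q ^ 2 * pA4 ρ / ρ ^ 11) / (2 + ρ) ^ 2 / 1782 := by
  have h2 : 0 < η ^ 2 := by positivity
  have hd : HasFDerivAt (weight η) (fderiv ℝ (weight η) (p, q)) (p, q) :=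
    ((contDiff_weight hη).differentiable one_ne_zero _).hasFDerivAt
  have hdist : dist' η p = ρ := by
    rw [dist', rho2_of_gt hη (by linarith), ← hρ, Real.sqrt_sq hρ0.le]
  constructor
  · have h1 : HasDerivAt (fun t => weight η (t, q)) (Dir.wa (weight η) (p, q)) p :=
      hd.comp_hasDerivAt_of_eq p ((hasDerivAt_id p).prodMk (hasDerivAt_const p q)) rfl
    refine h1.unique ?_
    have hl : HasDerivAt (fun t : ℝ => η ^ 2 + 2 * t) 2 p := by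
      simpa using ((hasDerivAt_id p).const_mul (2 : ℝ)).const_add (η ^ 2)
    have hs : HasDerivAt (fun t : ℝ => Real.sqrt (η ^ 2 + 2 * t)) (1 / ρ) p := by
      refine (hl.sqrt (by positivity)).congr_deriv ?_
      rw [← hρ, Real.sqrt_sq hρ0.le]
      field_simp
    have hA0 : HasDerivAt pA0 (10080 + 19992 * ρ + 9132 * ρ ^ 2 + 74976 * ρ ^ 3 + 13575 * ρ ^ 4 - 9216 * ρ ^ 5
        + 9464 * ρ ^ 6 + 1224 * ρ ^ 7) ρ := by
      have h : HasDerivAt pA0 _ ρ :=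
        (((((((((hasDerivAt_const ρ (10080 : ℝ)).add ((hasDerivAt_id ρ).const_mul 10080)).add ((hasDerivAt_pow 2 ρ).const_mul 9996)).add ((hasDerivAt_pow 3 ρ).const_mul 3044)).add ((hasDerivAt_pow 4 ρ).const_mul 18744)).add ((hasDerivAt_pow 5 ρ).const_mul 2715)).sub ((hasDerivAt_pow 6 ρ).const_mul 1536)).add ((hasDerivAt_pow 7 ρ).const_mul 1352)).add ((hasDerivAt_pow 8 ρ).const_mul 153))
      exact h.congr_deriv (by push_cast; ring)
    have hA2 : HasDerivAt pA2 (16400 - 159464 * ρ - 20826 * ρ ^ 2 + 79308 * ρ ^ 3 - 23105 * ρ ^ 4 - 4584 * ρ ^ 5) ρ := by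
      have h : HasDerivAt pA2 _ ρ :=
        (((((((hasDerivAt_const ρ (-10192 : ℝ)).add ((hasDerivAt_id ρ).const_mul 16400)).sub ((hasDerivAt_pow 2 ρ).const_mul 79732)).sub ((hasDerivAt_pow 3 ρ).const_mul 6942)).add ((hasDerivAt_pow 4 ρ).const_mul 19827)).sub ((hasDerivAt_pow 5 ρ).const_mul 4621)).sub ((hasDerivAt_pow 6 ρ).const_mul 764))
      exact h.congr_deriv (by push_cast; ring)
    have hA4 : HasDerivAt pA4 (24024 - 24136 * ρ) ρ := by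
      have h : HasDerivAt pA4 _ ρ :=
        (((hasDerivAt_const ρ (112 : ℝ)).add ((hasDerivAt_id ρ).const_mul 24024)).sub ((hasDerivAt_pow 2 ρ).const_mul 12068))
      exact h.congr_deriv (by push_cast; ring)
    have hG : HasDerivAt (fun x => (pA0 x / x ^ 7 + q ^ 2 * pA2 x / x ^ 9
        + q ^ 4 * pA4 x / x ^ 11) / (2 + x) ^ 2 / 1782) _ ρ :=
      ((((hA0.div (hasDerivAt_pow 7 ρ) (by positivity)).add
          ((hA2.const_mul (q ^ 2)).div (hasDerivAt_pow 9 ρ) (by positivity))).add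
          ((hA4.const_mul (q ^ 4)).div (hasDerivAt_pow 11 ρ) (by positivity))).div
          (((hasDerivAt_id ρ).const_add 2).pow 2)
            (pow_ne_zero 2 (add_pos two_pos hρ0).ne')).div_const 1782
    refine ((hG.comp_of_eq p hs (by rw [← hρ, Real.sqrt_sq hρ0.le])).congr_deriv
      ?_).congr_of_eventuallyEq ?_
    · simp only [Pi.pow_apply, Pi.add_apply, Pi.div_apply, id_eq]
      push_cast
      unfold gA0 gA2 gA4 pA0 pA2 pA4
      field_simp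
      ring
    · filter_upwards [lt_mem_nhds (show -(η ^ 2 / 4) < p by linarith)] with t ht
      simp only [weight, dist', rho2_of_gt hη ht.le, Function.comp]
  · have h1 : HasDerivAt (fun t => weight η (p, t)) (Dir.wb (weight η) (p, q)) q :=
      hd.comp_hasDerivAt_of_eq q ((hasDerivAt_const q p).prodMk (hasDerivAt_id q)) rfl
    refine h1.unique ?_
    simp only [weight, hdist]
    have hf : HasDerivAt (fun t : ℝ => (pA0 ρ / ρ ^ 7 + t ^ 2 * pA2 ρ / ρ ^ 9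
        + t ^ 4 * pA4 ρ / ρ ^ 11) / (2 + ρ) ^ 2 / 1782) _ q :=
      (((((hasDerivAt_pow 2 q).mul_const (pA2 ρ)).div_const (ρ ^ 9)).const_add
        (pA0 ρ / ρ ^ 7)).add
        (((hasDerivAt_pow 4 q).mul_const (pA4 ρ)).div_const (ρ ^ 11))).div_const ((2 + ρ) ^ 2)
        |>.div_const 1782
    refine hf.congr_deriv ?_
    push_cast
    field_simp

/-- The gain of the regularisation in the first term. -/
def gainF (x u q : ℝ) : ℝ := -10 * (2 + x) * (u * pA2 x + (1 + q) * u ^ 2 * pA4 x)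

/-- The gain of the regularisation in the second term. -/
def gainB (x u q : ℝ) : ℝ :=
  -((gA0 x - (2 + x) * pA0 x)
    + u * ((1 + q) * (gA2 x - 3 * (2 + x) * pA2 x) + 2 * (2 + x) * pA2 x)
    + u ^ 2 * ((1 + q + q ^ 2) * (gA4 x - 5 * (2 + x) * pA4 x) + 4 * (1 + q) * (2 + x) * pA4 x))

theorem gainF_nonneg {x u q : ℝ} (hx : 0 ≤ x) (hu : 0 ≤ u) (hu1 : u ≤ 1) (hq : 0 ≤ q)
    (hq1 : q ≤ 1) : 0 ≤ gainF x u q := by
  have hs := slope_nonpos hx (u := (1 + q) * u) (by positivity) (by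
    linarith [mul_le_mul (show 1 + q ≤ 2 by linarith) hu1 hu (by norm_num : (0 : ℝ) ≤ 2)])
  have e : gainF x u q = 10 * (2 + x) * u * -(pA2 x + (1 + q) * u * pA4 x) := by
    unfold gainF; ring
  rw [e]
  exact mul_nonneg (by positivity) (neg_nonneg.2 hs)

theorem gain_full {x u q : ℝ} (hx : 0 ≤ x) (hu : 0 ≤ u) (hu1 : u ≤ 1) (hq : 0 ≤ q)
    (hq1 : q ≤ 1) : 0 ≤ gainF x u q + gainB x u q := by
  have U := sub_nonneg.2 hu1
  have V := sub_nonneg.2 hq1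
  unfold gainF gainB gA0 gA2 gA4 pA0 pA2 pA4
  linarith [mul_nonneg (mul_nonneg (pow_nonneg U 2) (pow_nonneg V 2)) (gainFull_00 hx),
    mul_nonneg (mul_nonneg (pow_nonneg U 2) (mul_nonneg hq V)) (gainFull_01 hx),
    mul_nonneg (mul_nonneg (pow_nonneg U 2) (pow_nonneg hq 2)) (gainFull_02 hx),
    mul_nonneg (mul_nonneg (mul_nonneg hu U) (pow_nonneg V 2)) (gainFull_10 hx),
    mul_nonneg (mul_nonneg (mul_nonneg hu U) (mul_nonneg hq V)) (gainFull_11 hx),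
    mul_nonneg (mul_nonneg (mul_nonneg hu U) (pow_nonneg hq 2)) (gainFull_12 hx),
    mul_nonneg (mul_nonneg (pow_nonneg hu 2) (pow_nonneg V 2)) (gainFull_20 hx),
    mul_nonneg (mul_nonneg (pow_nonneg hu 2) (mul_nonneg hq V)) (gainFull_21 hx),
    mul_nonneg (mul_nonneg (pow_nonneg hu 2) (pow_nonneg hq 2)) (gainFull_22 hx)]

theorem gain_small {x u q : ℝ} (hx : 0 ≤ x) (hx1 : x ≤ 1 / 16) (hu : 0 ≤ u) (hu1 : u ≤ 1)
    (hq : 0 ≤ q) (hq1 : q ≤ 1) : gainF x u q / 500 ≤ gainF x u q + gainB x u q := by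
  have U := sub_nonneg.2 hu1
  have V := sub_nonneg.2 hq1
  unfold gainF gainB gA0 gA2 gA4 pA0 pA2 pA4
  linarith [mul_nonneg (mul_nonneg (pow_nonneg U 2) (pow_nonneg V 2)) (gainSmall_00 hx hx1),
    mul_nonneg (mul_nonneg (pow_nonneg U 2) (mul_nonneg hq V)) (gainSmall_01 hx hx1),
    mul_nonneg (mul_nonneg (pow_nonneg U 2) (pow_nonneg hq 2)) (gainSmall_02 hx hx1),
    mul_nonneg (mul_nonneg (mul_nonneg hu U) (pow_nonneg V 2)) (gainSmall_10 hx hx1),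
    mul_nonneg (mul_nonneg (mul_nonneg hu U) (mul_nonneg hq V)) (gainSmall_11 hx hx1),
    mul_nonneg (mul_nonneg (mul_nonneg hu U) (pow_nonneg hq 2)) (gainSmall_12 hx hx1),
    mul_nonneg (mul_nonneg (pow_nonneg hu 2) (pow_nonneg V 2)) (gainSmall_20 hx hx1),
    mul_nonneg (mul_nonneg (pow_nonneg hu 2) (mul_nonneg hq V)) (gainSmall_21 hx hx1),
    mul_nonneg (mul_nonneg (pow_nonneg hu 2) (pow_nonneg hq 2)) (gainSmall_22 hx hx1)]

/-- A bound for the loss of the regularisation, times `ρ ^ 9 (2 + ρ) ^ 2 / η ^ 2`. -/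
def lossM (ρ : ℝ) : ℝ :=
  896 + 296352 * ρ + 741024 * ρ ^ 2 + 1038680 * ρ ^ 3 + 69420 * ρ ^ 4 + 198270 * ρ ^ 5
    + 46210 * ρ ^ 6 + 7640 * ρ ^ 7

theorem abs_coeff {ρ : ℝ} (hρ : 0 ≤ ρ) :
    |pA2 ρ| ≤ 10192 + 16400 * ρ + 79732 * ρ ^ 2 + 6942 * ρ ^ 3 + 19827 * ρ ^ 4 + 4621 * ρ ^ 5
      + 764 * ρ ^ 6 ∧ |pA4 ρ| ≤ 112 + 24024 * ρ + 12068 * ρ ^ 2 := by
  have p := fun k => pow_nonneg hρ k
  unfold pA2 pA4
  rw [abs_le, abs_le]
  refine ⟨⟨?_, ?_⟩, ?_, ?_⟩ <;> linarith [p 2, p 3, p 4, p 5, p 6]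

/-- The row integrand at the regularised distance, without the cosine term. -/
def rowFlat (ρ c d e : ℝ) : ℝ :=
  (1 - d ^ 2) * gnum ρ c + (9 + d ^ 2) * (2 + ρ) * num ρ c - 10 * ρ * e * (2 + ρ) * num ρ c

/-- The regularised bracket at `q = r ^ 2 / ρ ^ 2` is at least its value at `q = 1`, up to a loss
that occurs only for `1 / 16 ≤ ρ`. -/
theorem regular_bracket {ρ c d e q x f g : ℝ} (hρ : 0 < ρ) (hc : |c| ≤ 1) (hd : |d| ≤ 1)
    (he0 : 0 ≤ e) (he : e ≤ |d|) (hq0 : 0 ≤ q) (hq1 : q ≤ 1) (hx1 : x ≤ 1)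
    (hfg : f ≤ g) (hg0 : 0 ≤ g) (hg1 : g ≤ 1) :
    rowFlat ρ c d e + (2 + ρ) * (2 * pA2 ρ + 4 * pA4 ρ * c ^ 2) * (|c| * |d|) * g
        - (if 1 / 16 ≤ ρ then (1 - q) * (2 + ρ) * lossM ρ * (|c| * |d|) else 0) ≤
      10 * (2 + ρ) * (pA0 ρ + c ^ 2 * q * pA2 ρ + (c ^ 2 * q) ^ 2 * pA4 ρ)
        + (1 - d ^ 2) * (q * ((gA0 ρ - (2 + ρ) * pA0 ρ) + c ^ 2 * q * (gA2 ρ - 3 * (2 + ρ) * pA2 ρ)
            + (c ^ 2 * q) ^ 2 * (gA4 ρ - 5 * (2 + ρ) * pA4 ρ))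
          + (2 + ρ) * (2 * (c ^ 2 * q) * pA2 ρ + 4 * (c ^ 2 * q) ^ 2 * pA4 ρ))
        + (2 + ρ) * (q * (2 * pA2 ρ + 4 * pA4 ρ * (c ^ 2 * q))) * (|c| * |d|) * f
        - 10 * ρ * e * x * (2 + ρ) * (pA0 ρ + c ^ 2 * q * pA2 ρ + (c ^ 2 * q) ^ 2 * pA4 ρ) := by
  obtain ⟨u, hu⟩ : ∃ u, u = c ^ 2 := ⟨_, rfl⟩
  have hu0 : 0 ≤ u := hu ▸ sq_nonneg c
  have hu1 : u ≤ 1 := by rw [hu, ← sq_abs]; exact pow_le_one₀ (abs_nonneg c) hc
  have hd2 : d ^ 2 ≤ 1 := by rw [← sq_abs]; exact pow_le_one₀ (abs_nonneg d) hd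
  have hx : 0 ≤ 1 - q := sub_nonneg.2 hq1
  have huq : 0 ≤ u * q := mul_nonneg hu0 hq0
  have huq1 : u * q ≤ 1 := mul_le_one₀ hu1 hq0 hq1
  obtain ⟨N, hN⟩ : ∃ N, N = pA0 ρ + u * q * pA2 ρ + (u * q) ^ 2 * pA4 ρ := ⟨_, rfl⟩
  have hN0 : 0 ≤ N := hN ▸ hρ.le.trans (num_ge hρ.le huq huq1)
  have a1 : 10 * ρ * e * x * (2 + ρ) * N ≤ 10 * ρ * e * 1 * (2 + ρ) * N := by gcongr
  have hφ : q * (2 * pA2 ρ + 4 * pA4 ρ * (u * q)) ≤ 0 :=
    mul_nonpos_of_nonneg_of_nonpos hq0 (by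
      linarith [slope_nonpos hρ.le (u := 2 * (u * q)) (by positivity) (by linarith)])
  have a2 : (2 + ρ) * (q * (2 * pA2 ρ + 4 * pA4 ρ * (u * q))) * (|c| * |d|) * g ≤
      (2 + ρ) * (q * (2 * pA2 ρ + 4 * pA4 ρ * (u * q))) * (|c| * |d|) * f :=
    mul_le_mul_of_nonpos_left hfg (mul_nonpos_of_nonpos_of_nonneg
      (mul_nonpos_of_nonneg_of_nonpos (by positivity) hφ) (by positivity))
  have hF := gainF_nonneg hρ.le hu0 hu1 hq0 hq1
  obtain ⟨E, hE⟩ : ∃ E, E = 2 * pA2 ρ + 4 * pA4 ρ * (u * (1 + q)) := ⟨_, rfl⟩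
  have main : rowFlat ρ c d e + (2 + ρ) * (2 * pA2 ρ + 4 * pA4 ρ * u) * (|c| * |d|) * g
      + (1 - q) * ((1 - d ^ 2) * (gainF ρ u q + gainB ρ u q) + (d ^ 2 - ρ * e) * gainF ρ u q
        - (2 + ρ) * E * (|c| * |d|) * g) ≤
      10 * (2 + ρ) * N
        + (1 - d ^ 2) * (q * ((gA0 ρ - (2 + ρ) * pA0 ρ) + u * q * (gA2 ρ - 3 * (2 + ρ) * pA2 ρ)
            + (u * q) ^ 2 * (gA4 ρ - 5 * (2 + ρ) * pA4 ρ))
          + (2 + ρ) * (2 * (u * q) * pA2 ρ + 4 * (u * q) ^ 2 * pA4 ρ))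
        + (2 + ρ) * (q * (2 * pA2 ρ + 4 * pA4 ρ * (u * q))) * (|c| * |d|) * f
        - 10 * ρ * e * x * (2 + ρ) * N := by
    rw [hN, hE] at *
    unfold rowFlat gnum num gainF gainB
    rw [show c ^ 4 = u ^ 2 by rw [hu]; ring, ← hu]
    linarith
  rw [← hu, ← hN]
  refine le_trans ?_ main
  have hrest : 0 ≤ (1 - d ^ 2) * (gainF ρ u q + gainB ρ u q) + d ^ 2 * gainF ρ u q :=
    add_nonneg (mul_nonneg (sub_nonneg.2 hd2) (gain_full hρ.le hu0 hu1 hq0 hq1))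
      (mul_nonneg (sq_nonneg d) hF)
  split_ifs with hρ1
  · obtain ⟨hA2, hA4⟩ := abs_coeff hρ.le
    have hcc : u ≤ |c| := by
      rw [hu, ← sq_abs, pow_two]
      exact mul_le_of_le_one_left (abs_nonneg c) hc
    have hFle : gainF ρ u q ≤ 10 * (2 + ρ) * |c| * (|pA2 ρ| + 2 * |pA4 ρ|) := by
      have e : gainF ρ u q = 10 * (2 + ρ) * u * -(pA2 ρ + (1 + q) * u * pA4 ρ) := by
        unfold gainF; ring
      have h1 : -(pA2 ρ + (1 + q) * u * pA4 ρ) ≤ |pA2 ρ| + 2 * |pA4 ρ| := by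
        have := mul_le_mul (show (1 + q) * u ≤ 2 by
          linarith [mul_le_mul (show 1 + q ≤ 2 by linarith) hu1 hu0 (by norm_num : (0 : ℝ) ≤ 2)])
          (neg_le_abs (pA4 ρ))
        rcases le_total 0 (pA4 ρ) with h | h
        · linarith [neg_le_abs (pA2 ρ), mul_nonneg (show 0 ≤ (1 + q) * u by positivity) h,
            abs_nonneg (pA4 ρ)]
        · linarith [neg_le_abs (pA2 ρ), this (neg_nonneg.2 h) (by norm_num)]
      rw [e]
      exact mul_le_mul (mul_le_mul_of_nonneg_left hcc (by positivity)) h1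
        (neg_nonneg.2 (slope_nonpos hρ.le (by positivity) (by
          linarith [mul_le_mul (show 1 + q ≤ 2 by linarith) hu1 hu0 (by norm_num : (0 : ℝ) ≤ 2)])))
        (by positivity)
    have hEg : E * g ≤ 8 * |pA4 ρ| := by
      have h1 : E ≤ 8 * |pA4 ρ| := by
        have hu2 : 0 ≤ u * (1 + q) := by positivity
        have hu3 : u * (1 + q) ≤ 2 := by
          linarith [mul_le_mul hu1 (show 1 + q ≤ 2 by linarith) (by linarith) zero_le_one]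
        have := mul_le_mul hu3 le_rfl (abs_nonneg (pA4 ρ)) (by norm_num)
        have := mul_le_mul_of_nonneg_left (le_abs_self (pA4 ρ)) hu2
        rw [hE]
        linarith [neg_pA2 hρ.le]
      exact le_trans (mul_le_mul_of_nonneg_right h1 hg0) (mul_le_of_le_one_right (by positivity) hg1)
    have h2 : ρ * e * gainF ρ u q ≤
        ρ * |d| * (10 * (2 + ρ) * |c| * (|pA2 ρ| + 2 * |pA4 ρ|)) :=
      mul_le_mul (mul_le_mul_of_nonneg_left he hρ.le) hFle hF (by positivity)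
    have h3 := mul_le_mul_of_nonneg_left hEg (show 0 ≤ (2 + ρ) * (|c| * |d|) by positivity)
    have h4 : 10 * ρ * (|pA2 ρ| + 2 * |pA4 ρ|) + 8 * |pA4 ρ| ≤ lossM ρ := by
      have := mul_le_mul_of_nonneg_left (add_le_add hA2 (mul_le_mul_of_nonneg_left hA4
        (show (0 : ℝ) ≤ 2 by norm_num))) (show 0 ≤ 10 * ρ by positivity)
      unfold lossM
      linarith
    have h5 := mul_le_mul_of_nonneg_left h4 (show 0 ≤ (2 + ρ) * (|c| * |d|) by positivity)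
    have h6 := mul_le_mul_of_nonneg_left (show
      0 ≤ (1 - d ^ 2) * (gainF ρ u q + gainB ρ u q) + (d ^ 2 - ρ * e) * gainF ρ u q
        - (2 + ρ) * E * (|c| * |d|) * g + (2 + ρ) * lossM ρ * (|c| * |d|) by linarith) hx
    linarith
  · have hρ2 : ρ ≤ 1 / 16 := le_of_not_ge hρ1
    have hEneg : (2 + ρ) * E * (|c| * |d|) * g ≤ 0 := by
      have : E ≤ 0 := by
        rw [hE]
        rcases le_total 0 (pA4 ρ) with h | h
        · linarith [pA24_small hρ.le hρ2, mul_le_mul_of_nonneg_right (show u * (1 + q) ≤ 2 by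
            linarith [mul_le_mul hu1 (show 1 + q ≤ 2 by linarith) (by linarith) zero_le_one]) h]
        · linarith [neg_pA2 hρ.le, mul_nonpos_of_nonneg_of_nonpos
            (show 0 ≤ u * (1 + q) by positivity) h]
      exact mul_nonpos_of_nonpos_of_nonneg (mul_nonpos_of_nonpos_of_nonneg
        (mul_nonpos_of_nonneg_of_nonpos (by positivity) this) (by positivity)) hg0
    have hs : 0 ≤ (1 - d ^ 2) * (gainF ρ u q + gainB ρ u q) + (d ^ 2 - ρ * e) * gainF ρ u q := by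
      have hρe : ρ * e ≤ 1 / 16 * |d| := mul_le_mul hρ2 he he0 (by norm_num)
      have h1 := mul_le_mul_of_nonneg_right hρe hF
      rcases le_total (1 / 16 : ℝ) |d| with h | h
      · have : 0 ≤ d ^ 2 - 1 / 16 * |d| := by
          rw [← sq_abs]; linarith [mul_le_mul_of_nonneg_right h (abs_nonneg d)]
        have := mul_nonneg this hF
        have := mul_nonneg (sub_nonneg.2 hd2) (gain_full hρ.le hu0 hu1 hq0 hq1)
        linarith
      · have h3 : d ^ 2 ≤ 1 / 256 := by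
          rw [← sq_abs]; linarith [pow_le_pow_left₀ (abs_nonneg d) h 2]
        have h4 := mul_le_mul_of_nonneg_left (gain_small hρ.le hρ2 hu0 hu1 hq0 hq1)
          (sub_nonneg.2 hd2)
        have h5 : 0 ≤ (1 - d ^ 2) / 500 + d ^ 2 - 1 / 16 * |d| := by
          linarith [sq_nonneg (|d| - 1 / 32), sq_abs d]
        have := mul_nonneg h5 hF
        linarith
    have h6 := mul_nonneg hx (show 0 ≤ (1 - d ^ 2) * (gainF ρ u q + gainB ρ u q)
      + (d ^ 2 - ρ * e) * gainF ρ u q - (2 + ρ) * E * (|c| * |d|) * g by linarith)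
    linarith

/-- The loss of the regularisation. -/
def loss (η ρ c d : ℝ) : ℝ :=
  if 1 / 16 ≤ ρ then lossM ρ * η ^ 2 / (ρ ^ 9 * (2 + ρ) ^ 2) * (|c| * |d|) else 0

/-- The row integrand at `r = x ρ`, times `ρ ^ 7 (2 + ρ) ^ 3`. -/
theorem kern_eval {η ρ x c d : ℝ} (hη : 0 < η) (hρ : 0 < ρ) (hx : 0 ≤ x) (hx1 : x ≤ 1)
    (hc : |c| ≤ 1) (hR : η ^ 2 + (x * ρ) ^ 2 = ρ ^ 2) :
    1782 * Dir.kern 11 (((11 : ℕ) : ℝ) - 1) (weight η) ((x * ρ) ^ 2 / 2) (x * ρ * c) d *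
        (ρ ^ 7 * (2 + ρ) ^ 3) =
      10 * (2 + ρ) * (pA0 ρ + c ^ 2 * x ^ 2 * pA2 ρ + (c ^ 2 * x ^ 2) ^ 2 * pA4 ρ)
        + (1 - d ^ 2) * (x ^ 2 * ((gA0 ρ - (2 + ρ) * pA0 ρ)
            + c ^ 2 * x ^ 2 * (gA2 ρ - 3 * (2 + ρ) * pA2 ρ)
            + (c ^ 2 * x ^ 2) ^ 2 * (gA4 ρ - 5 * (2 + ρ) * pA4 ρ))
          + (2 + ρ) * (2 * (c ^ 2 * x ^ 2) * pA2 ρ + 4 * (c ^ 2 * x ^ 2) ^ 2 * pA4 ρ))
        + (2 + ρ) * (x ^ 2 * (2 * pA2 ρ + 4 * pA4 ρ * (c ^ 2 * x ^ 2))) * (|c| * |d|) *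
          (Real.sqrt (1 - d ^ 2) * Real.sqrt (1 - c ^ 2))
        - 10 * ρ * max d 0 * x * (2 + ρ) *
          (pA0 ρ + c ^ 2 * x ^ 2 * pA2 ρ + (c ^ 2 * x ^ 2) ^ 2 * pA4 ρ) := by
  obtain ⟨r, hr⟩ : ∃ r, r = x * ρ := ⟨_, rfl⟩
  have hr0 : 0 ≤ r := by rw [hr]; positivity
  have hR' : ρ ^ 2 = η ^ 2 + 2 * (r ^ 2 / 2) := by rw [hr]; linarith
  rw [← hr]
  obtain ⟨wa, wb⟩ := fderiv_weight hη.ne' (show 0 ≤ r ^ 2 / 2 by positivity) hρ hR' (r * c)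
  have hw : weight η (r ^ 2 / 2, r * c) =
      (pA0 ρ / ρ ^ 7 + (r * c) ^ 2 * pA2 ρ / ρ ^ 9 + (r * c) ^ 4 * pA4 ρ / ρ ^ 11) /
        (2 + ρ) ^ 2 / 1782 := by
    have : dist' η (r ^ 2 / 2) = ρ := by
      rw [dist', rho2_of_gt hη.ne' (show -(η ^ 2 / 4) ≤ r ^ 2 / 2 by nlinarith), ← hR',
        Real.sqrt_sq hρ.le]
    simp only [weight, this]
  have e2 : Real.sqrt (2 * (r ^ 2 / 2) - (r * c) ^ 2) = r * Real.sqrt (1 - c ^ 2) := by
    rw [show 2 * (r ^ 2 / 2) - (r * c) ^ 2 = r ^ 2 * (1 - c ^ 2) by ring,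
      Real.sqrt_mul (sq_nonneg r), Real.sqrt_sq hr0]
  have e3 : Real.sqrt (2 * (r ^ 2 / 2)) = r := by
    rw [show 2 * (r ^ 2 / 2) = r ^ 2 by ring, Real.sqrt_sq hr0]
  have hc2 : c ^ 2 ≤ 1 := by rw [← sq_abs]; exact pow_le_one₀ (abs_nonneg c) hc
  have hneg : 2 * pA2 ρ / ρ ^ 9 + 4 * (r * c) ^ 2 * pA4 ρ / ρ ^ 11 ≤ 0 := by
    have e : 2 * pA2 ρ / ρ ^ 9 + 4 * (r * c) ^ 2 * pA4 ρ / ρ ^ 11 =
        2 * (pA2 ρ + 2 * (c ^ 2 * x ^ 2) * pA4 ρ) / ρ ^ 9 := by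
      rw [hr]
      field_simp
      ring
    rw [e]
    refine div_nonpos_of_nonpos_of_nonneg (mul_nonpos_of_nonneg_of_nonpos (by norm_num)
      (slope_nonpos hρ.le (by positivity) ?_)) (by positivity)
    linarith [mul_le_one₀ hc2 (sq_nonneg x) (pow_le_one₀ hx hx1)]
  have e4 : |Dir.wb (weight η) (r ^ 2 / 2, r * c)| =
      r * |c| * -(2 * pA2 ρ / ρ ^ 9 + 4 * (r * c) ^ 2 * pA4 ρ / ρ ^ 11) / (2 + ρ) ^ 2 / 1782 := by
    rw [wb, abs_div, abs_div, abs_mul, abs_mul, abs_of_nonneg hr0, abs_of_nonpos hneg,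
      abs_of_pos (show (0 : ℝ) < 1782 by norm_num),
      abs_of_pos (show (0 : ℝ) < (2 + ρ) ^ 2 by positivity)]
  simp only [Dir.kern, wa, hw, e2, e3, e4]
  rw [wb, hr]
  push_cast
  field_simp
  ring

theorem cross_le_one {c d : ℝ} (hc : 0 ≤ c) (hc1 : c ≤ 1) (hd : 0 ≤ d) (hd1 : d ≤ 1) :
    cross c d ≤ 1 := by
  by_cases h : c + d < 2
  · have hk : 0 < 4 - (c + d) ^ 2 := by nlinarith
    rw [Ten.cross, if_pos h, div_le_one hk]
    linarith [mul_le_mul_of_nonneg_right (show c * d ≤ ((c + d) / 2) ^ 2 by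
      linarith [sq_nonneg (c - d)]) (show 0 ≤ 4 + (c + d) ^ 2 by positivity),
      mul_nonneg (sq_nonneg (c + d)) hk.le]
  · rw [Ten.cross, if_neg h]
    exact zero_le_one

/-- The row integrand is at least the flat one at the regularised distance. -/
theorem kern_ge {η r c d : ℝ} (hη : 0 < η) (hr : 0 ≤ r) (hc : |c| ≤ 1) (hd : |d| ≤ 1) :
    psi (Real.sqrt (r ^ 2 + η ^ 2)) |c| |d| - 1782 - loss η (Real.sqrt (r ^ 2 + η ^ 2)) c d ≤
      1782 * Dir.kern 11 (((11 : ℕ) : ℝ) - 1) (weight η) (r ^ 2 / 2) (r * c) d := by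
  obtain ⟨ρ, hρ⟩ : ∃ ρ, ρ = Real.sqrt (r ^ 2 + η ^ 2) := ⟨_, rfl⟩
  have hρ0 : 0 < ρ := hρ ▸ Real.sqrt_pos.2 (by positivity)
  have hρ2 : ρ ^ 2 = r ^ 2 + η ^ 2 := hρ ▸ Real.sq_sqrt (by positivity)
  rw [← hρ]
  have hrρ : r ≤ ρ := hρ ▸ Real.le_sqrt_of_sq_le (by nlinarith)
  obtain ⟨x, hx⟩ : ∃ x, x = r / ρ := ⟨_, rfl⟩
  have hrx : r = x * ρ := by rw [hx, div_mul_cancel₀ _ hρ0.ne']
  have hx0 : 0 ≤ x := hx ▸ div_nonneg hr hρ0.le
  have hx1 : x ≤ 1 := hx ▸ (div_le_one hρ0).2 hrρ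
  have ev := kern_eval (c := c) (d := d) hη hρ0 hx0 hx1 hc (by rw [← hrx]; linarith)
  rw [← hrx] at ev
  obtain ⟨hg0, hg⟩ := cross_spec (abs_nonneg c) hc (abs_nonneg d) hd
  rw [sq_abs, sq_abs, Real.sqrt_mul
    (by rw [sub_nonneg, ← sq_abs]; exact pow_le_one₀ (abs_nonneg c) hc), mul_comm] at hg
  have hel : max d 0 ≤ |d| := max_le (le_abs_self d) (abs_nonneg d)
  have key := regular_bracket hρ0 hc hd (le_max_right d 0) hel (sq_nonneg x) (pow_le_one₀ hx0 hx1)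
    hx1 hg hg0 (cross_le_one (abs_nonneg c) hc (abs_nonneg d) hd)
  have hloss : (if 1 / 16 ≤ ρ then (1 - x ^ 2) * (2 + ρ) * lossM ρ * (|c| * |d|) else 0) =
      loss η ρ c d * (ρ ^ 7 * (2 + ρ) ^ 3) := by
    unfold loss
    split_ifs
    · have : η ^ 2 = (1 - x ^ 2) * ρ ^ 2 := by rw [hrx] at hρ2; linarith
      rw [this]
      field_simp
    · simp
  have hc4 : c ^ 4 = |c| ^ 4 := by rw [show |c| ^ 4 = (|c| ^ 2) ^ 2 by ring, sq_abs]; ring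
  have hnum : 0 ≤ num ρ c := by
    have hc2 : c ^ 2 ≤ 1 := by rw [← sq_abs]; exact pow_le_one₀ (abs_nonneg c) hc
    have := num_ge hρ0.le (sq_nonneg c) hc2
    unfold num
    linarith
  have hlin : 10 * ρ * max d 0 * (2 + ρ) * num ρ c ≤ 10 * ρ * |d| * (2 + ρ) * num ρ c :=
    mul_le_mul_of_nonneg_right (mul_le_mul_of_nonneg_right (mul_le_mul_of_nonneg_left
      hel (by positivity)) (by positivity)) hnum
  have e5 : (psi ρ |c| |d| - 1782) * (ρ ^ 7 * (2 + ρ) ^ 3) = rowFlat ρ c d |d|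
      + (2 + ρ) * (2 * pA2 ρ + 4 * pA4 ρ * c ^ 2) * (|c| * |d|) * cross |c| |d| := by
    unfold psi one rowFlat gnum num
    rw [sq_abs, sq_abs, ← hc4]
    field_simp
    ring
  rw [hloss] at key
  refine le_of_mul_le_mul_right ?_ (show 0 < ρ ^ 7 * (2 + ρ) ^ 3 by positivity)
  rw [sub_mul, e5, ev]
  unfold rowFlat at key ⊢
  linarith

theorem lossM_le {ρ : ℝ} (hρ : 1 / 16 ≤ ρ) :
    lossM ρ ≤ 1550824050522112 * (ρ ^ 9 * (2 + ρ) ^ 2) := by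
  have h0 : 0 ≤ ρ := by linarith
  have h16 : 1 ≤ 16 * ρ := by linarith
  have p := fun k => one_le_pow₀ h16 (n := k)
  have h : ∀ a : ℝ, 0 ≤ a → ∀ k : ℕ, a * ρ ^ k ≤ a * ρ ^ k * (16 * ρ) ^ (9 - k) := fun a ha k =>
    le_mul_of_one_le_right (mul_nonneg ha (pow_nonneg h0 k)) (p _)
  have hW : 1550824050522112 * ρ ^ 9 ≤ 1550824050522112 * (ρ ^ 9 * (2 + ρ) ^ 2) := by
    rw [← mul_assoc]
    exact le_mul_of_one_le_right (by positivity) (one_le_pow₀ (by linarith))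
  have := h 896 (by norm_num) 0
  have := h 296352 (by norm_num) 1
  have := h 741024 (by norm_num) 2
  have := h 1038680 (by norm_num) 3
  have := h 69420 (by norm_num) 4
  have := h 198270 (by norm_num) 5
  have := h 46210 (by norm_num) 6
  have := h 7640 (by norm_num) 7
  unfold lossM
  norm_num [mul_pow] at *
  linarith

theorem loss_le {η ρ c d : ℝ} (hη : 0 < η) (hη1 : η ≤ 1) :
    loss η ρ c d ≤ 1550824050522112 * η * (|c| * |d|) := by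
  unfold loss
  split_ifs with h
  · have hρ : 0 < ρ := by linarith
    refine mul_le_mul_of_nonneg_right ?_ (by positivity)
    rw [div_le_iff₀ (by positivity)]
    have h1 := mul_le_mul_of_nonneg_right (lossM_le h) (sq_nonneg η)
    have h2 := mul_le_mul_of_nonneg_left hη1
      (show 0 ≤ 1550824050522112 * (ρ ^ 9 * (2 + ρ) ^ 2) * η by positivity)
    linarith
  · positivity

/-- The symmetrised integrand is at least the flat one at the regularised distance. -/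
theorem sym_ge {η r c d : ℝ} (hη : 0 < η) (hη1 : η ≤ 1) (hr : 0 ≤ r) (hc : |c| ≤ 1)
    (hd : |d| ≤ 1) :
    psi (Real.sqrt (r ^ 2 + η ^ 2)) |c| |d| + psi (Real.sqrt (r ^ 2 + η ^ 2)) |d| |c|
        - 3101648101044224 * η * (|c| * |d|) ≤ 1782 * Gen.sym 11 (weight η) r c d := by
  have h1 := kern_ge hη hr hc hd
  have h2 := kern_ge hη hr hd hc
  have h3 := loss_le (c := c) (d := d) (ρ := Real.sqrt (r ^ 2 + η ^ 2)) hη hη1
  have h4 := loss_le (c := d) (d := c) (ρ := Real.sqrt (r ^ 2 + η ^ 2)) hη hη1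
  rw [Gen.sym]
  linarith

/-- The two clauses of the certificate, for a small parameter. -/
theorem weight_at {η ε T : ℝ} (hη0 : 0 < η) (hη1 : η ≤ 1) (hT : 0 < T)
    (hηC : η * (3101648101044224 * T ^ 10 + 3101648101044224 + 907200) ≤ 1782 * ε) :
    (∀ r c d, r ∈ Icc 0 T → c ∈ Icc (-1 : ℝ) 1 → d ∈ Icc (-1 : ℝ) 1 →
        -ε ≤ Gen.sym 11 (weight η) r c d) ∧
      ∀ r c d, r ∈ Ioc 0 T → c ∈ Ioc (0 : ℝ) 1 → d ∈ Ioc (0 : ℝ) 1 →
        aCoef c / 1782 * d + aCoef d / 1782 * c + 2 * (560 / 11) * c * d * r - ε * (c * d) ≤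
          r ^ (11 - 1) * Gen.sym 11 (weight η) r c d := by
  have hT10 : 0 ≤ T ^ 10 := by positivity
  refine ⟨?_, ?_⟩
  · intro r c d hr hc hd
    have hc1 : |c| ≤ 1 := abs_le.2 ⟨hc.1, hc.2⟩
    have hd1 : |d| ≤ 1 := abs_le.2 ⟨hd.1, hd.2⟩
    obtain ⟨ρ, hρ⟩ : ∃ ρ, ρ = Real.sqrt (r ^ 2 + η ^ 2) := ⟨_, rfl⟩
    have hρ0 : 0 < ρ := hρ ▸ Real.sqrt_pos.2 (by positivity)
    have h := sym_ge hη0 hη1 hr.1 hc1 hd1
    rw [← hρ] at h
    have h0 := psi_nonneg hρ0 (abs_nonneg c) hc1 (abs_nonneg d) hd1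
    have h1 : |c| * |d| ≤ 1 := mul_le_one₀ hc1 (abs_nonneg d) hd1
    have h2 := mul_le_mul_of_nonneg_left h1 (show 0 ≤ 3101648101044224 * η by positivity)
    have h3 := mul_nonneg hη0.le hT10
    linarith
  · intro r c d hr hc hd
    obtain ⟨ρ, hρ⟩ : ∃ ρ, ρ = Real.sqrt (r ^ 2 + η ^ 2) := ⟨_, rfl⟩
    have hρ0 : 0 < ρ := hρ ▸ Real.sqrt_pos.2 (by positivity)
    have hr0 : 0 ≤ r := hr.1.le
    have hrρ : r ≤ ρ := hρ ▸ Real.le_sqrt_of_sq_le (by nlinarith [sq_nonneg η])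
    have hηρ : η ≤ ρ := hρ ▸ Real.le_sqrt_of_sq_le (by nlinarith)
    have hρ2 : ρ ^ 2 = r ^ 2 + η ^ 2 := hρ ▸ Real.sq_sqrt (by positivity)
    have h := sym_ge hη0 hη1 hr0 (abs_le.2 ⟨by linarith [hc.1], hc.2⟩)
      (abs_le.2 ⟨by linarith [hd.1], hd.2⟩)
    rw [← hρ, abs_of_pos hc.1, abs_of_pos hd.1] at h
    have hl := line_regular hr0 hrρ hρ0 hc.1.le hc.2 hd.1.le hd.2
    obtain ⟨x, hx⟩ : ∃ x, x = r / ρ := ⟨_, rfl⟩
    have hx0 : 0 ≤ x := hx ▸ div_nonneg hr0 hρ0.le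
    have hx1 : x ≤ 1 := hx ▸ (div_le_one hρ0).2 hrρ
    rw [← hx] at hl
    have e : (1 - x ^ 2) * ρ ^ 2 = η ^ 2 := by rw [hx]; field_simp; linarith
    have hd3 : r * (1 - x ^ 9) ≤ 5 * η := by
      have h9 : 1 - x ^ 9 ≤ 5 * (1 - x ^ 2) := by
        have h' : x ^ 10 ≤ x ^ 9 := pow_le_pow_of_le_one hx0 hx1 (by norm_num)
        have h := sub_nonneg.2 (pow_le_one₀ hx0 hx1 : x ^ 2 ≤ 1)
        have := mul_nonneg (mul_nonneg h h)
          (show 0 ≤ (x ^ 2) ^ 3 + 2 * (x ^ 2) ^ 2 + 3 * x ^ 2 + 4 by positivity)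
        linarith
      refine (mul_le_mul_of_nonneg_left h9 hr0).trans ?_
      refine le_of_mul_le_mul_right ?_ (pow_pos hρ0 2)
      calc r * (5 * (1 - x ^ 2)) * ρ ^ 2 = 5 * (r * η) * η := by linear_combination 5 * r * e
        _ ≤ 5 * (ρ * ρ) * η := mul_le_mul_of_nonneg_right (mul_le_mul_of_nonneg_left
            (mul_le_mul hrρ hηρ hη0.le hρ0.le) (by norm_num)) hη0.le
        _ = _ := by ring
    obtain ⟨S, hS⟩ : ∃ S, S = Gen.sym 11 (weight η) r c d := ⟨_, rfl⟩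
    rw [← hS] at h ⊢
    have h9 := mul_le_mul_of_nonneg_left h (pow_nonneg hr0 10)
    have hcd : 0 ≤ c * d := mul_nonneg hc.1.le hd.1.le
    have hrT := mul_le_mul_of_nonneg_right (pow_le_pow_left₀ hr0 hr.2 10)
      (show 0 ≤ 3101648101044224 * η * (c * d) by positivity)
    have hd4 := mul_le_mul_of_nonneg_left hd3 (show 0 ≤ 181440 * (c * d) by positivity)
    have hC' := mul_le_mul_of_nonneg_right hηC hcd
    have h0 : 0 ≤ η * (c * d) := mul_nonneg hη0.le hcd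
    show _ ≤ r ^ 10 * S
    linarith

/-- The two clauses of the certificate for the weight. -/
theorem weight_cert {ε T : ℝ} (hε : 0 < ε) (hT : 0 < T) :
    ∃ w : ℝ × ℝ → ℝ, ContDiff ℝ 1 w ∧ (∀ p q, 0 ≤ p → q ^ 2 ≤ 2 * p → 0 < w (p, q)) ∧
      (∀ r c d, r ∈ Icc 0 T → c ∈ Icc (-1 : ℝ) 1 → d ∈ Icc (-1 : ℝ) 1 →
        -ε ≤ Gen.sym 11 w r c d) ∧
      ∀ r c d, r ∈ Ioc 0 T → c ∈ Ioc (0 : ℝ) 1 → d ∈ Ioc (0 : ℝ) 1 →
        aCoef c / 1782 * d + aCoef d / 1782 * c + 2 * (560 / 11) * c * d * r - ε * (c * d) ≤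
          r ^ (11 - 1) * Gen.sym 11 w r c d := by
  obtain ⟨C, hC⟩ : ∃ C, C = 3101648101044224 * T ^ 10 + 3101648101044224 + 907200 := ⟨_, rfl⟩
  have hC0 : 0 < C := by rw [hC]; positivity
  have hη0 : 0 < min 1 (1782 * ε / C) := lt_min one_pos (by positivity)
  obtain ⟨h1, h2⟩ := weight_at (ε := ε) hη0 (min_le_left _ _) hT
    (hC ▸ (le_div_iff₀ hC0).1 (min_le_right _ _))
  exact ⟨_, contDiff_weight hη0.ne', fun p q hp hq => weight_pos hη0.ne' hp hq, h1, h2⟩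

end Vale.Agent.P219.CH.Eleven
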